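import Vale.Agent.P060.Omega

/-! Independence number two and small clique number (P060). -/

open Finset

namespace Vale.Agent.P060

variable {V : Type} [Fintype V] [DecidableEq V]

/-- If no three vertices are pairwise non-adjacent, a non-neighbourhood is a clique. -/
theorem degree_compl_le_cliqueNum (G : SimpleGraph V) [DecidableRel G.Adj]
    (hα : Gᶜ.CliqueFree 3) (v : V) : Gᶜ.degree v ≤ G.cliqueNum := by
  rw [← SimpleGraph.card_neighborFinset_eq_degree]
  refine SimpleGraph.IsClique.card_le_cliqueNum (tc := ?_)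
  intro x hx y hy hne
  rw [mem_coe, SimpleGraph.mem_neighborFinset] at hx hy
  by_contra h
  exact hα {v, x, y} (SimpleGraph.is3Clique_triple_iff.2 ⟨hx, hy, hne, h⟩)

/-- Hadwiger's conjecture for independence number two and clique number `c n^{3/4}`. -/
theorem hadwiger_alpha_two (G : SimpleGraph V) [DecidableRel G.Adj] (hα : Gᶜ.CliqueFree 3)
    (hω : 10 ^ 14 * G.cliqueNum ^ 4 ≤ Fintype.card V ^ 3) :
    ∃ t, G.Colorable t ∧ HasMinor G t := by
  refine hadwiger_omega G G.cliqueNum (degree_compl_le_cliqueNum G hα) ?_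
  set w := G.cliqueNum
  set n := Fintype.card V
  have h2 : 2 * w ≤ n := by
    by_contra hlt
    push Not at hlt
    have h1 : n ^ 3 ≤ (2 * w) ^ 3 := Nat.pow_le_pow_left hlt.le 3
    have h3 : (2 * w) ^ 3 = 8 * w ^ 3 := by ring
    have h4 : w ^ 3 ≤ w ^ 4 := Nat.pow_le_pow_right (by omega) (by norm_num)
    have h5 : 0 < w ^ 4 := pow_pos (by omega) 4
    omega
  have h1 : n ^ 3 ≤ (2 * (n - w)) ^ 3 := Nat.pow_le_pow_left (by omega) 3
  have h3 : (2 * (n - w)) ^ 3 = 8 * (n - w) ^ 3 := by ring
  omega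

end Vale.Agent.P060
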