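import Vale.Agent.P060.Defs

/-! Dense graphs whose complement has a large matching satisfy Hadwiger's conjecture (P060). -/

open Finset

namespace Vale.Agent.P060

variable {V : Type} [Fintype V] [DecidableEq V]

theorem HasMinor.mono {G : SimpleGraph V} {s t : ℕ} (hst : s ≤ t) (h : HasMinor G t) :
    HasMinor G s := by
  obtain ⟨B, h1, h2, h3, h4⟩ := h
  refine ⟨fun i => B (Fin.castLE hst i), fun i => h1 _, fun i => h2 _, fun i j hij => h3 _ _ ?_,
    fun i j hij => h4 _ _ ?_⟩ <;>
  · intro h
    exact hij (Fin.castLE_injective hst h)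

/-- an involution encoding a matching of `G` -/
def IsMatchInv (G : SimpleGraph V) (p : V → V) : Prop :=
  ∀ x, p (p x) = x ∧ (p x ≠ x → G.Adj x (p x))

/-- two vertices that may form a branch set -/
def Good (H : SimpleGraph V) (x y : V) : Prop := x ≠ y ∧ ¬ H.Adj x y ∧ ∀ z, ¬ (H.Adj z x ∧ H.Adj z y)

theorem bad_card (H : SimpleGraph V) [DecidableRel H.Adj] (D : ℕ) (hD : ∀ v, H.degree v ≤ D)
    (x : V) [DecidablePred (fun y => ¬ Good H x y)] :
    (univ.filter (fun y => y ≠ x ∧ ¬ Good H x y)).card ≤ D ^ 2 := by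
  have hsub : univ.filter (fun y => y ≠ x ∧ ¬ Good H x y) ⊆
      H.neighborFinset x ∪ (H.neighborFinset x).biUnion (fun z => (H.neighborFinset z).erase x) := by
    intro y hy
    obtain ⟨-, hne, hy⟩ := mem_filter.1 hy
    unfold Good at hy
    by_cases hxy : H.Adj x y
    · exact mem_union_left _ (by simpa using hxy)
    · have h : ∃ z, H.Adj z x ∧ H.Adj z y := by
        by_contra h
        exact hy ⟨Ne.symm hne, hxy, fun z hz => h ⟨z, hz⟩⟩
      obtain ⟨z, hzx, hzy⟩ := h
      exact mem_union_right _ (mem_biUnion.2 ⟨z, by simpa using hzx.symm,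
        mem_erase.2 ⟨hne, by simpa using hzy⟩⟩)
  refine (card_le_card hsub).trans ((card_union_le _ _).trans ?_)
  have h1 : (H.neighborFinset x).card ≤ D := by
    rw [SimpleGraph.card_neighborFinset_eq_degree]; exact hD x
  have h2 : ((H.neighborFinset x).biUnion (fun z => (H.neighborFinset z).erase x)).card
      ≤ (H.neighborFinset x).card * (D - 1) := by
    refine card_biUnion_le_card_mul _ _ _ fun z hz => ?_
    rw [card_erase_of_mem (by simpa [SimpleGraph.adj_comm] using hz),
      SimpleGraph.card_neighborFinset_eq_degree]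
    exact Nat.sub_le_sub_right (hD z) 1
  rcases Nat.eq_zero_or_pos D with rfl | hpos
  · simp only [Nat.le_zero] at h1
    rw [h1] at h2 ⊢
    simp at h2 ⊢
    simp [h2]
  · have h3 := Nat.mul_le_mul_right (D - 1) h1
    have h4 : D + D * (D - 1) = D ^ 2 := by
      obtain ⟨e, rfl⟩ : ∃ e, D = e + 1 := ⟨D - 1, by omega⟩
      simp
      ring
    omega

/-- a pairing of two sets all of whose pairs are good -/
theorem exists_good_equiv (H : SimpleGraph V) [DecidableRel H.Adj] (D : ℕ)
    (hD : ∀ v, H.degree v ≤ D) (L R : Finset V) (hdis : Disjoint L R) (hcard : L.card = R.card)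
    (hbig : 2 * D ^ 2 ≤ L.card) : ∃ σ : L ≃ R, ∀ i : L, Good H i (σ i) := by
  classical
  obtain ⟨σ, -, hmin⟩ := Finset.exists_min_image (univ : Finset (L ≃ R))
    (fun σ => (univ.filter (fun i : L => ¬ Good H i (σ i))).card)
    ⟨Finset.equivOfCardEq hcard, mem_univ _⟩
  refine ⟨σ, ?_⟩
  by_contra hcon
  push Not at hcon
  obtain ⟨i, hi⟩ := hcon
  have hne : ∀ (a : L) (b : R), (b : V) ≠ (a : V) := fun a b h =>
    disjoint_left.1 hdis a.2 (h ▸ b.2)
  have hc1 : (univ.filter (fun j : L => ¬ Good H i (σ j))).card ≤ D ^ 2 := by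
    refine le_trans ?_ (bad_card H D hD (i : V))
    refine card_le_card_of_injOn (fun j : L => ((σ j : R) : V)) ?_ ?_
    · intro j hj
      simp only [coe_filter, mem_univ, true_and, Set.mem_ofPred_eq] at hj ⊢
      exact ⟨hne i (σ j), hj⟩
    · intro a _ b _ h
      exact σ.injective (Subtype.ext h)
  have hc2 : (univ.filter (fun j : L => ¬ Good H j (σ i))).card ≤ D ^ 2 := by
    refine le_trans ?_ (bad_card H D hD ((σ i : R) : V))
    refine card_le_card_of_injOn (fun j : L => (j : V)) ?_ ?_
    · intro j hj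
      simp only [coe_filter, mem_univ, true_and, Set.mem_ofPred_eq] at hj ⊢
      refine ⟨(hne j (σ i)).symm, fun h => hj ⟨h.1.symm, fun h' => h.2.1 h'.symm, fun z hz => ?_⟩⟩
      exact h.2.2 z ⟨hz.2, hz.1⟩
    · intro a _ b _ h
      exact Subtype.ext h
  have hboth : i ∈ (univ.filter (fun j : L => ¬ Good H i (σ j))) ∩
      (univ.filter (fun j : L => ¬ Good H j (σ i))) := by simp [hi]
  have hu := card_union_add_card_inter (univ.filter (fun j : L => ¬ Good H i (σ j)))
    (univ.filter (fun j : L => ¬ Good H j (σ i)))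
  have hpos := card_pos.2 ⟨i, hboth⟩
  have hlt : ((univ.filter (fun j : L => ¬ Good H i (σ j))) ∪
      (univ.filter (fun j : L => ¬ Good H j (σ i)))).card < (univ : Finset L).card := by
    rw [card_univ, Fintype.card_coe]
    omega
  obtain ⟨j, -, hj⟩ := exists_mem_notMem_of_card_lt_card hlt
  simp only [mem_union, mem_filter, mem_univ, true_and, not_or, not_not] at hj
  have hij : i ≠ j := by rintro rfl; exact hi hj.1
  have := hmin ((Equiv.swap i j).trans σ) (mem_univ _)
  refine absurd this (not_le.2 (card_lt_card ?_))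
  rw [ssubset_iff_of_subset]
  · exact ⟨i, mem_filter.2 ⟨mem_univ _, hi⟩, fun h => (mem_filter.1 h).2 (by simpa using hj.1)⟩
  · intro k hk
    refine mem_filter.2 ⟨mem_univ _, ?_⟩
    replace hk := (mem_filter.1 hk).2
    rw [Equiv.trans_apply] at hk
    rcases eq_or_ne k i with rfl | hki
    · exact hi
    · rcases eq_or_ne k j with rfl | hkj
      · simp only [Equiv.swap_apply_right] at hk
        exact absurd hj.2 hk
      · rwa [Equiv.swap_apply_of_ne_of_ne hki hkj] at hk

/-- core: a maximum matching of the complement covering at least `4 D²` vertices suffices -/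
theorem hasMinor_of_cover (G : SimpleGraph V) [DecidableRel G.Adj] (D : ℕ)
    (hD : ∀ v, Gᶜ.degree v ≤ D) (p : V → V) (hp : IsMatchInv Gᶜ p)
    (hmax : ∀ x y, p x = x → p y = y → ¬ Gᶜ.Adj x y)
    (hbig : 4 * D ^ 2 ≤ (univ.filter (fun x => p x ≠ x)).card) :
    ∃ t, G.Colorable t ∧ HasMinor G t := by
  classical
  let e := Fintype.equivFin V
  set U := univ.filter (fun x => p x = x) with hU
  set L := univ.filter (fun x => p x ≠ x ∧ e x < e (p x)) with hL
  set R := univ.filter (fun x => p x ≠ x ∧ e (p x) < e x) with hR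
  have hpp : ∀ x, p (p x) = x := fun x => (hp x).1
  have hdis : Disjoint L R := by
    rw [disjoint_left]; intro x hx hy
    simp only [hL, hR, mem_filter] at hx hy
    exact absurd hx.2.2 (not_lt.2 hy.2.2.le)
  have hcardLR : L.card = R.card := by
    refine card_bij' (fun x _ => p x) (fun x _ => p x) ?_ ?_ (fun x _ => hpp x) (fun x _ => hpp x) <;>
    · intro x hx
      simp only [hL, hR, mem_filter, mem_univ, true_and] at hx ⊢
      exact ⟨fun h => hx.1 (by rw [hpp] at h; exact h.symm), by rw [hpp]; exact hx.2⟩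
  have hcov : univ.filter (fun x => p x ≠ x) = L ∪ R := by
    ext x
    simp only [hL, hR, mem_filter, mem_univ, true_and, mem_union]
    constructor
    · intro h
      rcases lt_trichotomy (e x) (e (p x)) with h' | h' | h'
      · exact Or.inl ⟨h, h'⟩
      · exact absurd (e.injective h').symm h
      · exact Or.inr ⟨h, h'⟩
    · rintro (h | h) <;> exact h.1
  rw [hcov, card_union_of_disjoint hdis] at hbig
  obtain ⟨σ, hσ⟩ := exists_good_equiv Gᶜ D hD L R hdis hcardLR (by omega)
  have hUne : ∀ (u : U) (y : V), p y ≠ y → (u : V) ≠ y := by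
    intro u y hy h
    have := u.2
    simp only [hU, mem_filter] at this
    exact hy (h ▸ this.2)
  have hLne : ∀ i : L, p (i : V) ≠ i := fun i => by
    have := i.2; simp only [hL, mem_filter] at this; exact this.2.1
  have hRne : ∀ i : R, p (i : V) ≠ i := fun i => by
    have := i.2; simp only [hR, mem_filter] at this; exact this.2.1
  have hadjG : ∀ x y, x ≠ y → ¬ Gᶜ.Adj x y → G.Adj x y := fun x y hne h => by
    simpa [SimpleGraph.compl_adj, hne] using h
  -- branch sets
  let B : (↥U ⊕ ↥L) → Set V := Sum.elim (fun u => {(u : V)}) (fun i => {(i : V), ((σ i : R) : V)})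
  let E := Fintype.equivFin (↥U ⊕ ↥L)
  refine ⟨Fintype.card (↥U ⊕ ↥L), ?_, fun k => B (E.symm k), ?_, ?_, ?_, ?_⟩
  · -- colouring
    have hmemR : ∀ x, x ∉ U → x ∉ L → p x ∈ L := by
      intro x h1 h2
      simp only [hU, mem_filter, mem_univ, true_and] at h1
      simp only [hL, mem_filter, mem_univ, true_and, not_and, not_lt] at h2 ⊢
      refine ⟨fun h => h1 (by rw [hpp] at h; exact h.symm), ?_⟩
      rw [hpp]
      exact lt_of_le_of_ne (h2 h1) (fun h => h1 (e.injective h))
    let col : V → ↥U ⊕ ↥L := fun x =>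
      if h1 : x ∈ U then Sum.inl ⟨x, h1⟩
      else if h2 : x ∈ L then Sum.inr ⟨x, h2⟩ else Sum.inr ⟨p x, hmemR x h1 h2⟩
    refine (SimpleGraph.Coloring.mk col ?_).colorable
    intro x y hadj hc
    have hne := hadj.ne
    have key : y = p x ∨ x = p y ∨ x = y := by
      simp only [col] at hc
      split_ifs at hc with a1 b1 b2 a2 b1 b2 b1 b2 <;>
        first
        | (simp only [Sum.inl.injEq, Sum.inr.injEq, Subtype.mk.injEq] at hc
           first
           | exact Or.inr (Or.inr hc)
           | exact Or.inr (Or.inl hc)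
           | exact Or.inl hc.symm
           | exact Or.inr (Or.inr (by rw [← hpp x, hc, hpp])))
        | simp at hc
    rcases key with h | h | h
    · subst h
      exact ((hp x).2 (fun h' => hne h'.symm)).2 hadj
    · subst h
      exact ((hp y).2 hne).2 hadj.symm
    · exact hne h
  · intro k
    change (B (E.symm k)).Nonempty
    generalize E.symm k = a
    rcases a with u | i <;> simp [B]
  · intro k
    change (G.induce (B (E.symm k))).Connected
    generalize E.symm k = a
    rcases a with u | i
    · simp only [B, Sum.elim_inl]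
      refine (SimpleGraph.connected_iff_exists_forall_reachable _).2
        ⟨⟨(u : V), rfl⟩, fun b => ?_⟩
      rw [show b = ⟨(u : V), rfl⟩ from Subtype.ext b.2]
    · simp only [B, Sum.elim_inr]
      exact SimpleGraph.induce_pair_connected_of_adj (hadjG _ _ (hσ i).1 (hσ i).2.1)
  · intro k l hkl
    have hne : E.symm k ≠ E.symm l := fun h => hkl (E.symm.injective h)
    change Disjoint (B (E.symm k)) (B (E.symm l))
    revert hne
    generalize E.symm k = a
    generalize E.symm l = a'
    rcases a with u | i <;> rcases a' with w | j <;> intro hne <;>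
      simp only [B, Sum.elim_inl, Sum.elim_inr, Set.disjoint_singleton_left,
        Set.disjoint_singleton_right, Set.disjoint_insert_left, Set.mem_singleton_iff,
        Set.mem_insert_iff, not_or]
    · exact fun h => hne (by simp [Subtype.ext_iff, h])
    · exact ⟨hUne u _ (hLne j), hUne u _ (hRne _)⟩
    · exact ⟨hUne w _ (hLne i), hUne w _ (hRne _)⟩
    · have hij : i ≠ j := fun h => hne (by rw [h])
      refine ⟨⟨fun h => hij (Subtype.ext h), fun h => ?_⟩, fun h => ?_, fun h => ?_⟩
      · exact disjoint_left.1 hdis i.2 (h ▸ (σ j).2)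
      · exact disjoint_left.1 hdis j.2 (h ▸ (σ i).2)
      · exact hij (σ.injective (Subtype.ext h))
  · intro k l hkl
    have hne : E.symm k ≠ E.symm l := fun h => hkl (E.symm.injective h)
    have hpair : ∀ (z : V) (i : L), z ≠ (i : V) → z ≠ ((σ i : R) : V) →
        ∃ y ∈ ({(i : V), ((σ i : R) : V)} : Set V), G.Adj z y := by
      intro z i h1 h2
      by_contra hcon
      push Not at hcon
      refine (hσ i).2.2 z ⟨?_, ?_⟩
      · rw [SimpleGraph.compl_adj]; exact ⟨h1, hcon _ (by simp)⟩
      · rw [SimpleGraph.compl_adj]; exact ⟨h2, hcon _ (by simp)⟩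
    change ∃ x ∈ B (E.symm k), ∃ y ∈ B (E.symm l), G.Adj x y
    revert hne
    generalize E.symm k = a
    generalize E.symm l = a'
    rcases a with u | i <;> rcases a' with w | j <;> intro hne <;>
      simp only [B, Sum.elim_inl, Sum.elim_inr]
    · refine ⟨u, rfl, w, rfl, hadjG _ _ (fun h => hne (by simp [Subtype.ext_iff, h])) ?_⟩
      have h1 := u.2; have h2 := w.2
      simp only [hU, mem_filter] at h1 h2
      exact hmax _ _ h1.2 h2.2
    · obtain ⟨y, hy, h⟩ := hpair u j (hUne u _ (hLne j)) (hUne u _ (hRne _))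
      exact ⟨u, rfl, y, hy, h⟩
    · obtain ⟨y, hy, h⟩ := hpair w i (hUne w _ (hLne i)) (hUne w _ (hRne _))
      exact ⟨y, hy, w, rfl, h.symm⟩
    · have hij : i ≠ j := fun h => hne (by rw [h])
      obtain ⟨y, hy, h⟩ := hpair (i : V) j (fun h => hij (Subtype.ext h))
        (fun h => disjoint_left.1 hdis i.2 (h ▸ (σ j).2))
      exact ⟨i, by simp, y, hy, h⟩

/-- from any maximum matching of the complement -/
theorem exists_max_matchInv (H : SimpleGraph V) :
    ∃ p, IsMatchInv H p ∧ (∀ x y, p x = x → p y = y → ¬ H.Adj x y) ∧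
      ∀ q, IsMatchInv H q →
        (univ.filter (fun x => q x ≠ x)).card ≤ (univ.filter (fun x => p x ≠ x)).card := by
  classical
  obtain ⟨p, hp, hmax⟩ := Finset.exists_max_image (univ.filter (fun p : V → V => IsMatchInv H p))
    (fun p => (univ.filter (fun x => p x ≠ x)).card) ⟨id, mem_filter.2 ⟨mem_univ _, fun x => ⟨rfl, fun h => absurd rfl h⟩⟩⟩
  replace hp := (mem_filter.1 hp).2
  replace hmax : ∀ q, IsMatchInv H q → _ := fun q hq => hmax q (mem_filter.2 ⟨mem_univ _, hq⟩)
  refine ⟨p, hp, ?_, fun q hq => hmax q hq⟩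
  intro x y hx hy hadj
  have hne := hadj.ne
  have hne2 : ∀ z, z ≠ x → z ≠ y → p z ≠ x ∧ p z ≠ y := by
    intro z h1 h2
    exact ⟨fun h => h1 (by rw [← (hp z).1, h, hx]), fun h => h2 (by rw [← (hp z).1, h, hy])⟩
  set q : V → V := fun z => if z = x then y else if z = y then x else p z with hq
  have hqm : IsMatchInv H q := by
    intro z
    simp only [hq]
    by_cases h1 : z = x
    · subst h1; simp [hne.symm, hadj]
    · by_cases h2 : z = y
      · subst h2; simp [hne, hne.symm, hadj.symm]
      · simp [h1, h2, hne2 z h1 h2, hp z]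
        exact (hp z).2
  refine absurd (hmax q hqm) (not_le.2 (card_lt_card ?_))
  rw [ssubset_iff_of_subset]
  · exact ⟨x, by simp [hq, hne.symm], by simp [hx]⟩
  · intro z hz
    simp only [mem_filter, mem_univ, true_and, hq] at hz ⊢
    by_cases h1 : z = x
    · exact absurd (h1 ▸ hx) (h1 ▸ hz)
    · by_cases h2 : z = y
      · exact absurd (h2 ▸ hy) (h2 ▸ hz)
      · simpa [h1, h2] using hz


theorem satisfies_of {G : SimpleGraph V} {t : ℕ} (h1 : G.Colorable t) (h2 : HasMinor G t) :
    ∃ s : ℕ, G.chromaticNumber = s ∧ HasMinor G s := by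
  have hle := h1.chromaticNumber_le
  obtain ⟨s, hs⟩ := ENat.ne_top_iff_exists.1 (ne_top_of_le_ne_top (ENat.natCast_ne_top t) hle)
  refine ⟨s, hs.symm, h2.mono ?_⟩
  rw [← hs] at hle
  exact_mod_cast hle

theorem of_matching (G : SimpleGraph V) [DecidableRel G.Adj] (D : ℕ)
    (hD : ∀ v, Gᶜ.degree v ≤ D) (M : Gᶜ.Subgraph) (hM : M.IsMatching)
    (hbig : 4 * D ^ 2 ≤ M.verts.ncard) : ∃ t, G.Colorable t ∧ HasMinor G t := by
  classical
  obtain ⟨p, hp, hmax, hbest⟩ := exists_max_matchInv Gᶜ
  set q : V → V := fun x => if h : x ∈ M.verts then (hM h).choose else x with hq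
  have hqM : ∀ x (h : x ∈ M.verts), M.Adj x (q x) := by
    intro x h; simp only [hq, dif_pos h]; exact (hM h).choose_spec.1
  have hqm : IsMatchInv Gᶜ q := by
    intro x
    by_cases h : x ∈ M.verts
    · have h1 := hqM x h
      have h2 : q x ∈ M.verts := M.edge_vert h1.symm
      exact ⟨(hM h2).unique (hqM _ h2) h1.symm, fun _ => h1.adj_sub⟩
    · have : q x = x := by simp [hq, h]
      rw [this]
      exact ⟨this, fun h' => absurd rfl h'⟩
  refine hasMinor_of_cover G D hD p hp hmax (hbig.trans ?_)
  refine le_trans ?_ (hbest q hqm)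
  rw [← Set.ncard_coe_finset]
  refine Set.ncard_le_ncard ?_ (Set.toFinite _)
  intro x hx
  simpa using (hqM x hx).adj_sub.ne.symm

theorem of_regular (G : SimpleGraph V) [DecidableRel G.Adj] (r : ℕ)
    (hr : G.IsRegularOfDegree r) (hn : 8 * (Fintype.card V - 1 - r) ^ 2 ≤ Fintype.card V) :
    ∃ t, G.Colorable t ∧ HasMinor G t := by
  classical
  set D := Fintype.card V - 1 - r with hDdef
  have hdeg : ∀ v, Gᶜ.degree v = D := fun v => by
    rw [SimpleGraph.degree_compl, hr v]
  obtain ⟨p, hp, hmax, -⟩ := exists_max_matchInv Gᶜ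
  refine hasMinor_of_cover G D (fun v => (hdeg v).le) p hp hmax ?_
  set C := univ.filter (fun x => p x ≠ x) with hC
  rcases Nat.eq_zero_or_pos D with h0 | hpos
  · simp [h0]
  have hsum : (univ \ C).card * D ≤ C.card * D := by
    refine Finset.card_mul_le_card_mul (fun x y => Gᶜ.Adj x y) ?_ ?_
    · intro x hx
      rw [← hdeg x, ← SimpleGraph.card_neighborFinset_eq_degree]
      refine card_le_card ?_
      intro y hy
      have hadj : Gᶜ.Adj x y := by rwa [SimpleGraph.mem_neighborFinset] at hy
      simp only [mem_bipartiteAbove, hC, mem_filter, mem_univ, true_and]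
      refine ⟨fun h => ?_, hadj⟩
      simp only [hC, mem_sdiff, mem_univ, true_and, mem_filter, not_not] at hx
      exact hmax x y hx h hadj
    · intro y _
      rw [← hdeg y, ← SimpleGraph.card_neighborFinset_eq_degree]
      refine card_le_card ?_
      intro x hx
      simp only [mem_bipartiteBelow] at hx
      rw [SimpleGraph.mem_neighborFinset]
      exact hx.2.symm
  have hle := Nat.le_of_mul_le_mul_right hsum hpos
  have hsd : (univ \ C).card + C.card = Fintype.card V := by
    rw [card_sdiff_add_card_eq_card (subset_univ C), card_univ]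
  omega

end Vale.Agent.P060
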