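import Vale.Agent.P060.Pairs
import Vale.Agent.P060.Dense

/-! Representatives of the odd components of a Tutte–Berge set (P060). -/

open Finset

namespace Vale.Agent.P060

variable {V : Type} [Fintype V] [DecidableEq V]

/-- `H` with `k` new vertices joined to everything -/
def aug (H : SimpleGraph V) (k : ℕ) : SimpleGraph (V ⊕ Fin k) where
  Adj a b := a ≠ b ∧ ∀ x y, a = Sum.inl x → b = Sum.inl y → H.Adj x y
  symm := ⟨fun a b h => ⟨h.1.symm, fun x y ha hb => (h.2 y x hb ha).symm⟩⟩
  loopless := ⟨fun a h => h.1 rfl⟩

theorem aug_inl {H : SimpleGraph V} {k : ℕ} {x y : V} :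
    (aug H k).Adj (Sum.inl x) (Sum.inl y) ↔ H.Adj x y := by
  refine ⟨fun h => h.2 x y rfl rfl, fun h => ⟨fun e => h.ne (Sum.inl.inj e), ?_⟩⟩
  rintro a b ⟨rfl⟩ ⟨rfl⟩
  exact h

theorem aug_inr {H : SimpleGraph V} {k : ℕ} {i : Fin k} {a : V ⊕ Fin k} (h : a ≠ Sum.inr i) :
    (aug H k).Adj a (Sum.inr i) :=
  ⟨h, fun _ _ _ h => by cases h⟩

/-- reps `Z` of odd components after deleting `S` witness that the matching `p` is maximum -/
theorem exists_reps (H : SimpleGraph V) (p : V → V) (hp : IsMatchInv H p)
    (hbest : ∀ q, IsMatchInv H q →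
      (univ.filter (fun x => q x ≠ x)).card ≤ (univ.filter (fun x => p x ≠ x)).card) :
    ∃ Z S : Finset V, Disjoint Z S ∧ (∀ z ∈ Z, ∀ w ∈ Z, ¬ H.Adj z w) ∧
      (∀ x, x ∉ Z → x ∉ S → ∀ z ∈ Z, ∀ w ∈ Z, H.Adj x z → H.Adj x w → z = w) ∧
      (univ.filter (fun x => p x = x)).card + S.card ≤ Z.card := by
  classical
  set d := (univ.filter (fun x => p x = x)).card with hd
  rcases le_or_gt d 1 with h1 | h2
  · refine ⟨univ.filter (fun x => p x = x), ∅, disjoint_empty_right _, ?_, ?_, by simp [← hd]⟩
    · intro z hz w hw h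
      exact h.ne (card_le_one.1 h1 z hz w hw)
    · intro x _ _ z hz w hw _ _
      exact card_le_one.1 h1 z hz w hw
  obtain ⟨U, L, R, -, -, -, hLR, hsum, hU, -⟩ := exists_split Hᶜ p (by rw [compl_compl]; exact hp)
  have hUd : U.card = d := by rw [hd]; congr 1; ext x; simp [hU]
  set k := d - 2 with hk
  -- the augmented graph has no perfect matching
  have hno : ¬ ∃ M : (aug H k).Subgraph, M.IsPerfectMatching := by
    rintro ⟨M, hM⟩
    choose f hf huniq using SimpleGraph.Subgraph.isPerfectMatching_iff.1 hM
    have hinv : ∀ a, f (f a) = a := fun a => (huniq (f a) a (hf a).symm).symm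
    set q : V → V := fun x => Sum.elim (fun y => y) (fun _ => x) (f (Sum.inl x)) with hq
    have hq' : IsMatchInv H q := by
      intro x
      rcases hfx : f (Sum.inl x) with y | i
      · have hqx : q x = y := by simp [hq, hfx]
        have hqy : q y = x := by
          have : f (Sum.inl y) = Sum.inl x := by rw [← hfx, hinv]
          simp [hq, this]
        rw [hqx, hqy]
        refine ⟨rfl, fun _ => (aug_inl (k := k)).1 ?_⟩
        rw [← hfx]
        exact (hf _).adj_sub
      · have hqx : q x = x := by simp [hq, hfx]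
        rw [hqx, hqx]
        exact ⟨rfl, fun h => absurd rfl h⟩
    have hfix : ((univ.filter (fun x => q x = x)).image fun x => f (Sum.inl x)) ⊆
        (univ : Finset (Fin k)).image Sum.inr := by
      intro a ha
      obtain ⟨x, hx, rfl⟩ := mem_image.1 ha
      rcases hfx : f (Sum.inl x) with y | i
      · have hyx : y = x := by
          have := (mem_filter.1 hx).2
          simpa [hq, hfx] using this
        have := (hf (Sum.inl x)).adj_sub
        rw [hfx, hyx] at this
        exact absurd rfl this.1
      · exact mem_image.2 ⟨i, mem_univ _, rfl⟩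
    have h3 := card_le_card hfix
    rw [card_image_of_injective _ fun x y h => Sum.inl.inj
        (by have := congrArg f h; rwa [hinv, hinv] at this),
      card_image_of_injective _ Sum.inr_injective, card_univ, Fintype.card_fin] at h3
    have h4 := hbest q hq'
    have h5 := card_filter_add_card_filter_not (s := (univ : Finset V)) (fun x => q x = x)
    have h6 := card_filter_add_card_filter_not (s := (univ : Finset V)) (fun x => p x = x)
    simp only [ne_eq] at h4
    omega
  rw [SimpleGraph.tutte] at hno
  push Not at hno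
  obtain ⟨u, hu⟩ := hno
  unfold SimpleGraph.IsTutteViolator at hu
  set K := ((⊤ : (aug H k).Subgraph).deleteVerts u).coe with hK
  have hKadj : ∀ a b, (aug H k).Adj a.1 b.1 → K.Adj a b := by
    intro a b h
    have ha := a.2
    have hb := b.2
    simp only [hK, SimpleGraph.Subgraph.deleteVerts_verts, SimpleGraph.Subgraph.verts_top,
      Set.mem_sdiff, Set.mem_univ, true_and] at ha hb ⊢
    simp [SimpleGraph.Subgraph.coe_adj, SimpleGraph.Subgraph.deleteVerts_adj, ha, hb, h]
  have hverts : ∀ a, a ∈ ((⊤ : (aug H k).Subgraph).deleteVerts u).verts ↔ a ∉ u := by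
    intro a; simp
  have hcardV : Nat.card ((⊤ : (aug H k).Subgraph).deleteVerts u).verts + u.ncard =
      Fintype.card V + k := by
    rw [Nat.card_coe_set_eq, show ((⊤ : (aug H k).Subgraph).deleteVerts u).verts = uᶜ from
      Set.ext fun a => by simp [hverts], add_comm, Set.ncard_add_ncard_compl]
    simp
  have hpar := SimpleGraph.odd_ncard_oddComponents (G := K)
  by_cases hall : ∀ i, Sum.inr i ∈ u
  swap
  · push Not at hall
    obtain ⟨i, hi⟩ := hall
    have hone : K.oddComponents.ncard ≤ 1 := by
      rw [Set.ncard_le_one_iff]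
      intro c c' _ _
      have key : ∀ c : K.ConnectedComponent,
          c = K.connectedComponentMk ⟨Sum.inr i, (hverts _).2 hi⟩ := by
        intro c
        induction c using SimpleGraph.ConnectedComponent.ind with
        | _ a =>
          by_cases ha : a.1 = Sum.inr i
          · exact congrArg K.connectedComponentMk (Subtype.ext ha)
          · exact SimpleGraph.ConnectedComponent.connectedComponentMk_eq_of_adj
              (hKadj _ _ (aug_inr ha))
      rw [key c, key c']
    have hu0 : u.ncard = 0 := by omega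
    have : Odd (K.oddComponents.ncard) := by rw [show K.oddComponents.ncard = 1 by omega]; exact odd_one
    rw [hpar, Nat.odd_iff] at this
    omega
  set S := univ.filter (fun x => Sum.inl x ∈ u) with hS
  have hucard : u.ncard = S.card + k := by
    have : u = ↑(S.disjSum (univ : Finset (Fin k))) := by
      ext a
      rcases a with x | i
      · simp [hS]
      · simp [hall i]
    rw [this, Set.ncard_coe_finset, card_disjSum, card_univ, Fintype.card_fin]
  have hrep : ∀ c : K.ConnectedComponent, ∃ (x : V)
      (h : Sum.inl x ∈ ((⊤ : (aug H k).Subgraph).deleteVerts u).verts),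
      K.connectedComponentMk ⟨Sum.inl x, h⟩ = c := by
    intro c
    induction c using SimpleGraph.ConnectedComponent.ind with
    | _ a =>
      obtain ⟨x | i, ha⟩ := a
      · exact ⟨x, ha, rfl⟩
      · exact absurd (hall i) ((hverts _).1 ha)
  choose rep hrv hrc using hrep
  have hinj : Function.Injective rep := by
    intro c c' h
    rw [← hrc c, ← hrc c']
    congr 2
    rw [h]
  have hsame : ∀ (x : V) (c : K.ConnectedComponent) (hx : Sum.inl x ∉ u), H.Adj x (rep c) →
      K.connectedComponentMk ⟨Sum.inl x, (hverts _).2 hx⟩ = c := by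
    intro x c hx h
    rw [← hrc c]
    exact SimpleGraph.ConnectedComponent.connectedComponentMk_eq_of_adj (hKadj _ _ (aug_inl.2 h))
  refine ⟨K.oddComponents.toFinset.image rep, S, ?_, ?_, ?_, ?_⟩
  · rw [disjoint_left]
    intro z hz hzS
    obtain ⟨c, -, rfl⟩ := mem_image.1 hz
    exact (hverts _).1 (hrv c) (mem_filter.1 hzS).2
  · intro z hz w hw h
    obtain ⟨c, -, rfl⟩ := mem_image.1 hz
    obtain ⟨c', -, rfl⟩ := mem_image.1 hw
    have := hsame _ c' ((hverts _).1 (hrv c)) h
    rw [show K.connectedComponentMk ⟨Sum.inl (rep c), _⟩ = c from hrc c] at this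
    exact h.ne (congrArg rep this)
  · intro x _ hxS z hz w hw h h'
    obtain ⟨c, -, rfl⟩ := mem_image.1 hz
    obtain ⟨c', -, rfl⟩ := mem_image.1 hw
    have hx : Sum.inl x ∉ u := fun e => hxS (mem_filter.2 ⟨mem_univ _, e⟩)
    rw [← hsame x c hx h, ← hsame x c' hx h']
  · rw [card_image_of_injective _ hinj, ← Set.ncard_eq_toFinset_card']
    rw [hucard] at hu hcardV
    rw [Nat.odd_iff, Nat.odd_iff] at hpar
    omega

end Vale.Agent.P060
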