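import Mathlib

/-! A lopsided local lemma for random bijections, by counting (P060). -/

open Finset

namespace Vale.Agent.P060

variable {α β : Type*} [Fintype α] [DecidableEq α] [Fintype β] [DecidableEq β]

/-- the bijections avoiding all the partial matchings in `S` -/
def Avoiding (S : Finset (Finset (α × β))) : Finset (α ≃ β) :=
  univ.filter (fun σ => ∀ f ∈ S, ¬ ∀ p ∈ f, σ p.1 = p.2)

/-- the bijections containing the partial matching `e` -/
def Containing (e : Finset (α × β)) : Finset (α ≃ β) :=
  univ.filter (fun σ => ∀ p ∈ e, σ p.1 = p.2)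

theorem mem_Avoiding {S : Finset (Finset (α × β))} {σ : α ≃ β} :
    σ ∈ Avoiding S ↔ ∀ f ∈ S, ¬ ∀ p ∈ f, σ p.1 = p.2 := by simp [Avoiding]

theorem mem_Containing {e : Finset (α × β)} {σ : α ≃ β} :
    σ ∈ Containing e ↔ ∀ p ∈ e, σ p.1 = p.2 := by simp [Containing]

theorem Avoiding_mono {S T : Finset (Finset (α × β))} (h : S ⊆ T) :
    Avoiding T ⊆ Avoiding S := fun _ hσ =>
  mem_Avoiding.2 fun f hf => mem_Avoiding.1 hσ f (h hf)

/-- switching the partner of `a` creates no matching away from `a` and `b` -/
theorem switch_mem {S : Finset (Finset (α × β))} {σ : α ≃ β} {a a' : α} {b : β}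
    (hσ : σ ∈ Avoiding S) (hab : σ a = b)
    (hfar : ∀ f ∈ S, ∀ p ∈ f, p.1 ≠ a ∧ p.2 ≠ b) :
    (Equiv.swap a a').trans σ ∈ Avoiding S := by
  refine mem_Avoiding.2 fun f hf hall => mem_Avoiding.1 hσ f hf fun p hp => ?_
  obtain ⟨h1, h2⟩ := hfar f hf p hp
  have h3 := hall p hp
  rw [Equiv.trans_apply] at h3
  rcases eq_or_ne p.1 a' with h | h
  · rw [h, Equiv.swap_apply_right, hab] at h3
    exact absurd h3.symm h2
  · rwa [Equiv.swap_apply_of_ne_of_ne h1 h] at h3

theorem switch_one {S : Finset (Finset (α × β))} {a : α} {b : β}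
    (hfar : ∀ f ∈ S, ∀ p ∈ f, p.1 ≠ a ∧ p.2 ≠ b) :
    (Avoiding S ∩ Containing {(a, b)}).card * Fintype.card α ≤ (Avoiding S).card := by
  rw [← card_univ (α := α), ← card_product]
  refine card_le_card_of_injOn (fun q => (Equiv.swap a q.2).trans q.1) ?_ ?_
  · rintro ⟨σ, a'⟩ hq
    simp only [coe_product, Set.mem_prod, mem_coe, mem_inter] at hq
    exact switch_mem hq.1.1 (mem_Containing.1 hq.1.2 (a, b) (by simp)) hfar
  · rintro ⟨σ, a'⟩ hq ⟨τ, c'⟩ hq' h
    simp only [coe_product, Set.mem_prod, mem_coe, mem_inter] at hq hq'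
    have e1 : σ a = b := mem_Containing.1 hq.1.2 (a, b) (by simp)
    have e2 : τ a = b := mem_Containing.1 hq'.1.2 (a, b) (by simp)
    dsimp only at h
    have hac : a' = c' := by
      have k1 : ((Equiv.swap a a').trans σ) a' = b := by simp [e1]
      have k2 : ((Equiv.swap a c').trans τ) c' = b := by simp [e2]
      rw [h] at k1
      exact ((Equiv.swap a c').trans τ).injective (k1.trans k2.symm)
    subst hac
    refine Prod.ext (Equiv.ext fun x => ?_) rfl
    have := congrArg (fun g : α ≃ β => g (Equiv.swap a a' x)) h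
    simpa using this

theorem switch_two {S : Finset (Finset (α × β))} {a c : α} {b d : β} (hac : a ≠ c)
    (hfar : ∀ f ∈ S, ∀ p ∈ f, (p.1 ≠ a ∧ p.2 ≠ b) ∧ p.1 ≠ c ∧ p.2 ≠ d) :
    (Avoiding S ∩ Containing {(a, b), (c, d)}).card *
      (Fintype.card α * (Fintype.card α - 1)) ≤ (Avoiding S).card := by
  have h1 : (Avoiding S ∩ Containing {(a, b), (c, d)}).card * (Fintype.card α - 1)
      ≤ (Avoiding S ∩ Containing {(c, d)}).card := by
    rw [← card_univ (α := α), ← card_erase_of_mem (mem_univ c), ← card_product]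
    refine card_le_card_of_injOn (fun q => (Equiv.swap a q.2).trans q.1) ?_ ?_
    · rintro ⟨σ, a'⟩ hq
      simp only [coe_product, Set.mem_prod, mem_coe, mem_inter, mem_erase] at hq
      have e1 : σ a = b := mem_Containing.1 hq.1.2 (a, b) (by simp)
      have e2 : σ c = d := mem_Containing.1 hq.1.2 (c, d) (by simp)
      refine mem_inter.2 ⟨switch_mem hq.1.1 e1 (fun f hf p hp => (hfar f hf p hp).1),
        mem_Containing.2 ?_⟩
      intro p hp
      rw [mem_singleton] at hp
      subst hp
      simp [Equiv.swap_apply_of_ne_of_ne hac.symm hq.2.1.symm, e2]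
    · rintro ⟨σ, a'⟩ hq ⟨τ, c'⟩ hq' h
      simp only [coe_product, Set.mem_prod, mem_coe, mem_inter] at hq hq'
      have e1 : σ a = b := mem_Containing.1 hq.1.2 (a, b) (by simp)
      have e2 : τ a = b := mem_Containing.1 hq'.1.2 (a, b) (by simp)
      dsimp only at h
      have hac : a' = c' := by
        have k1 : ((Equiv.swap a a').trans σ) a' = b := by simp [e1]
        have k2 : ((Equiv.swap a c').trans τ) c' = b := by simp [e2]
        rw [h] at k1
        exact ((Equiv.swap a c').trans τ).injective (k1.trans k2.symm)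
      subst hac
      refine Prod.ext (Equiv.ext fun x => ?_) rfl
      have := congrArg (fun g : α ≃ β => g (Equiv.swap a a' x)) h
      simpa using this
  have h2 := switch_one (a := c) (b := d) (S := S) (fun f hf p hp => (hfar f hf p hp).2)
  calc _ = (Avoiding S ∩ Containing {(a, b), (c, d)}).card * (Fintype.card α - 1)
        * Fintype.card α := by ring
    _ ≤ (Avoiding S ∩ Containing {(c, d)}).card * Fintype.card α := Nat.mul_le_mul_right _ h1
    _ ≤ _ := h2

theorem sum_biUnion_le {ι κ : Type*} [DecidableEq κ] (s : Finset ι) (t : ι → Finset κ)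
    (g : κ → ℕ) : ∑ x ∈ s.biUnion t, g x ≤ ∑ i ∈ s, ∑ x ∈ t i, g x := by
  classical
  induction s using Finset.induction_on with
  | empty => simp
  | insert i s his ih =>
    rw [biUnion_insert, sum_insert his]
    exact le_trans (le_of_le_of_eq (Nat.le_add_right _ _) sum_union_inter)
      (Nat.add_le_add_left ih _)

/-- weight of an event: `card α - 1` for one pair, `1` for two -/
def weight (α : Type*) [Fintype α] {β : Type*} (e : Finset (α × β)) : ℕ :=
  if e.card = 1 then Fintype.card α - 1 else 1

/-- `e` and `f` share an element -/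
def Near (e f : Finset (α × β)) : Prop := ∃ p ∈ e, ∃ q ∈ f, q.1 = p.1 ∨ q.2 = p.2

theorem lopsided (E : Finset (Finset (α × β)))
    (hshape : ∀ e ∈ E, (∃ a b, e = {(a, b)}) ∨ ∃ a b c d, a ≠ c ∧ b ≠ d ∧ e = {(a, b), (c, d)})
    (X : ℕ) (hα : ∀ a, ∑ f ∈ E.filter (fun f => ∃ q ∈ f, q.1 = a), weight α f ≤ X)
    (hβ : ∀ b, ∑ f ∈ E.filter (fun f => ∃ q ∈ f, q.2 = b), weight α f ≤ X)
    (hX : 16 * X < Fintype.card α * (Fintype.card α - 1)) (σ0 : α ≃ β) :
    ∃ σ : α ≃ β, ∀ f ∈ E, ¬ ∀ p ∈ f, σ p.1 = p.2 := by
  classical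
  set W := Fintype.card α * (Fintype.card α - 1) with hW
  have hfarCase : ∀ e ∈ E, ∀ S : Finset (Finset (α × β)), (∀ f ∈ S, ¬ Near e f) →
      (Avoiding S ∩ Containing e).card * W ≤ weight α e * (Avoiding S).card := by
    intro e he S hS
    have hfar : ∀ f ∈ S, ∀ p ∈ f, ∀ r ∈ e, p.1 ≠ r.1 ∧ p.2 ≠ r.2 := fun f hf p hp r hr =>
      ⟨fun h => hS f hf ⟨r, hr, p, hp, Or.inl h⟩, fun h => hS f hf ⟨r, hr, p, hp, Or.inr h⟩⟩
    rcases hshape e he with ⟨a, b, rfl⟩ | ⟨a, b, c, d, hac, -, rfl⟩
    · have := switch_one (a := a) (b := b) (fun f hf p hp => hfar f hf p hp (a, b) (by simp))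
      have hw : weight α ({(a, b)} : Finset (α × β)) = Fintype.card α - 1 := by simp [weight]
      rw [hw, hW]
      calc _ = (Avoiding S ∩ Containing {(a, b)}).card * Fintype.card α
            * (Fintype.card α - 1) := by ring
        _ ≤ (Avoiding S).card * (Fintype.card α - 1) := Nat.mul_le_mul_right _ this
        _ = _ := by ring
    · have := switch_two hac (S := S) (b := b) (d := d)
        (fun f hf p hp => ⟨hfar f hf p hp (a, b) (by simp), hfar f hf p hp (c, d) (by simp)⟩)
      have hne : (a, b) ≠ (c, d) := fun h => hac (congrArg Prod.fst h)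
      have hw : weight α ({(a, b), (c, d)} : Finset (α × β)) = 1 := by simp [weight, card_pair hne]
      rw [hw, one_mul]
      exact this
  have hnear : ∀ e ∈ E, ∑ f ∈ E.filter (fun f => Near e f), weight α f ≤ 4 * X := by
    intro e he
    have hsub : E.filter (fun f => Near e f) ⊆
        e.biUnion (fun p => E.filter (fun f => ∃ q ∈ f, q.1 = p.1) ∪
          E.filter (fun f => ∃ q ∈ f, q.2 = p.2)) := by
      intro f hf
      obtain ⟨hfE, p, hp, q, hq, h | h⟩ := mem_filter.1 hf
      · exact mem_biUnion.2 ⟨p, hp, mem_union_left _ (mem_filter.2 ⟨hfE, q, hq, h⟩)⟩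
      · exact mem_biUnion.2 ⟨p, hp, mem_union_right _ (mem_filter.2 ⟨hfE, q, hq, h⟩)⟩
    have hcard : e.card ≤ 2 := by
      rcases hshape e he with ⟨a, b, rfl⟩ | ⟨a, b, c, d, -, -, rfl⟩
      · simp
      · exact card_le_two
    calc _ ≤ _ := sum_le_sum_of_subset hsub
      _ ≤ ∑ p ∈ e, ∑ f ∈ E.filter (fun f => ∃ q ∈ f, q.1 = p.1) ∪
          E.filter (fun f => ∃ q ∈ f, q.2 = p.2), weight α f :=
        sum_biUnion_le e _ _
      _ ≤ ∑ _p ∈ e, (X + X) := sum_le_sum fun p _ =>
        le_trans (le_of_le_of_eq (Nat.le_add_right _ _) sum_union_inter)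
          (Nat.add_le_add (hα p.1) (hβ p.2))
      _ ≤ 4 * X := by
        rw [sum_const, smul_eq_mul]
        nlinarith
  have hw4 : ∀ e ∈ E, weight α e ≤ 4 * X := fun e he => by
    refine le_trans ?_ (hnear e he)
    refine single_le_sum (f := fun f => weight α f) (fun _ _ => Nat.zero_le _) (mem_filter.2 ⟨he, ?_⟩)
    rcases hshape e he with ⟨a, b, rfl⟩ | ⟨a, b, c, d, -, -, rfl⟩
    · exact ⟨(a, b), by simp, (a, b), by simp, Or.inl rfl⟩
    · exact ⟨(a, b), by simp, (a, b), by simp, Or.inl rfl⟩
  -- the main induction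
  have key : ∀ S : Finset (Finset (α × β)), S ⊆ E → ∀ e ∈ E,
      (Avoiding S ∩ Containing e).card * W ≤ 2 * weight α e * (Avoiding S).card := by
    intro S
    induction S using Finset.strongInduction with
    | H S ih =>
      intro hSE e he
      set N := S.filter (fun f => Near e f) with hN
      set F := S.filter (fun f => ¬ Near e f) with hF
      rcases N.eq_empty_or_nonempty with h0 | hne
      · have := hfarCase e he S (fun f hf hn =>
          notMem_empty f (h0 ▸ mem_filter.2 ⟨hf, hn⟩))
        calc _ ≤ weight α e * (Avoiding S).card := this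
          _ ≤ _ := Nat.mul_le_mul_right _ (Nat.le_mul_of_pos_left _ two_pos)
      · obtain ⟨f0, hf0⟩ := hne
        have hss : F ⊂ S := by
          rw [ssubset_iff_of_subset (filter_subset _ _)]
          exact ⟨f0, (mem_filter.1 hf0).1, fun h => (mem_filter.1 h).2 (mem_filter.1 hf0).2⟩
        have hcover : Avoiding F ⊆ Avoiding S ∪ N.biUnion (fun f => Avoiding F ∩ Containing f) := by
          intro σ hσ
          by_cases h : σ ∈ Avoiding S
          · exact mem_union_left _ h
          · rw [mem_Avoiding] at h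
            push Not at h
            obtain ⟨f, hf, hfc⟩ := h
            refine mem_union_right _ (mem_biUnion.2 ⟨f, ?_,
              mem_inter.2 ⟨hσ, mem_Containing.2 hfc⟩⟩)
            refine mem_filter.2 ⟨hf, ?_⟩
            by_contra hn
            exact mem_Avoiding.1 hσ f (mem_filter.2 ⟨hf, hn⟩) hfc
        have hA : (Avoiding F).card * W ≤
            (Avoiding S).card * W + 8 * X * (Avoiding F).card := by
          have h1 : ∑ f ∈ N, (Avoiding F ∩ Containing f).card * W
              ≤ 8 * X * (Avoiding F).card := by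
            calc _ ≤ ∑ f ∈ N, 2 * weight α f * (Avoiding F).card :=
                  sum_le_sum fun f hf => ih F hss (fun g hg => hSE (filter_subset _ _ hg)) f
                    (hSE (mem_filter.1 hf).1)
              _ = 2 * (∑ f ∈ N, weight α f) * (Avoiding F).card := by
                rw [mul_sum, sum_mul]
              _ ≤ _ := by
                refine Nat.mul_le_mul_right _ ?_
                have : ∑ f ∈ N, weight α f ≤ 4 * X :=
                  le_trans (sum_le_sum_of_subset fun f hf =>
                    mem_filter.2 ⟨hSE (mem_filter.1 hf).1, (mem_filter.1 hf).2⟩) (hnear e he)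
                omega
          calc _ ≤ ((Avoiding S).card + ∑ f ∈ N, (Avoiding F ∩ Containing f).card) * W :=
                Nat.mul_le_mul_right _ (((card_le_card hcover).trans (card_union_le _ _)).trans
                  (Nat.add_le_add_left card_biUnion_le _))
            _ ≤ _ := by rw [add_mul, sum_mul]; exact Nat.add_le_add_left h1 _
        have hhalf : (Avoiding F).card ≤ 2 * (Avoiding S).card := by
          by_contra hlt
          push Not at hlt
          have h3 : (2 * (Avoiding S).card + 1) * W ≤ (Avoiding F).card * W :=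
            Nat.mul_le_mul_right _ hlt
          nlinarith
        calc _ ≤ (Avoiding F ∩ Containing e).card * W :=
              Nat.mul_le_mul_right _ (card_le_card (inter_subset_inter_right
                (Avoiding_mono (filter_subset _ _))))
          _ ≤ weight α e * (Avoiding F).card :=
              hfarCase e he F (fun f hf => (mem_filter.1 hf).2)
          _ ≤ weight α e * (2 * (Avoiding S).card) := Nat.mul_le_mul_left _ hhalf
          _ = _ := by ring
  have hpos : ∀ S : Finset (Finset (α × β)), S ⊆ E → 0 < (Avoiding S).card := by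
    intro S
    induction S using Finset.induction_on with
    | empty => intro _; exact card_pos.2 ⟨σ0, mem_Avoiding.2 (by simp)⟩
    | insert e S heS ih =>
      intro hSE
      rw [insert_subset_iff] at hSE
      have h0 := ih hSE.2
      have hk := key S hSE.2 e hSE.1
      have hlt : (Avoiding S ∩ Containing e).card < (Avoiding S).card := by
        by_contra hle
        push Not at hle
        have h1 := Nat.mul_le_mul_right W hle
        have h2 := hw4 e hSE.1
        nlinarith
      obtain ⟨σ, hσ, hσe⟩ := exists_mem_notMem_of_card_lt_card hlt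
      refine card_pos.2 ⟨σ, mem_Avoiding.2 fun f hf => ?_⟩
      rcases mem_insert.1 hf with rfl | hf
      · exact fun h => hσe (mem_inter.2 ⟨hσ, mem_Containing.2 h⟩)
      · exact mem_Avoiding.1 hσ f hf
  obtain ⟨σ, hσ⟩ := card_pos.1 (hpos E subset_rfl)
  exact ⟨σ, mem_Avoiding.1 hσ⟩

end Vale.Agent.P060
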