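import Vale.Agent.P060.Pairs
import Vale.Agent.P060.Lopsided

/-! Graphs of minimum degree `n - O(n^{3/4})`: pairing by the local lemma (P060). -/

open Finset

namespace Vale.Agent.P060

variable {V : Type} [Fintype V] [DecidableEq V] (H : SimpleGraph V) [DecidableRel H.Adj]

/-- common neighbours -/
def common (x y : V) : Finset V := H.neighborFinset x ∩ H.neighborFinset y

theorem mem_common {x y z : V} : z ∈ common H x y ↔ H.Adj x z ∧ H.Adj y z := by
  simp [common]

variable {H} {D : ℕ} (hD : ∀ v, H.degree v ≤ D)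

include hD

theorem sum_common_le (x : V) (S : Finset V) : ∑ y ∈ S, (common H x y).card ≤ D ^ 2 := by
  calc ∑ y ∈ S, (common H x y).card
      = ∑ z ∈ H.neighborFinset x, (S.filter (fun y => H.Adj y z)).card := by
        have h1 : ∀ y, common H x y = bipartiteBelow (fun z y => H.Adj y z) (H.neighborFinset x) y := by
          intro y; ext z; simp [mem_common, bipartiteBelow]
        simp only [h1, ← Finset.sum_card_bipartiteAbove_eq_sum_card_bipartiteBelow, bipartiteAbove]
    _ ≤ ∑ _z ∈ H.neighborFinset x, D := sum_le_sum fun z _ => by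
        refine le_trans (card_le_card ?_) (hD z)
        intro y hy
        simpa using (mem_filter.1 hy).2.symm
    _ ≤ D ^ 2 := by
        rw [sum_const, smul_eq_mul, sq, SimpleGraph.card_neighborFinset_eq_degree]
        exact Nat.mul_le_mul_right _ (hD x)

theorem single_count (x : V) (S : Finset V) (K A : ℕ) (P0 : V → Prop) [DecidablePred P0]
    (hA : (S.filter P0).card ≤ A) [DecidablePred fun y => H.Adj x y ∨ P0 y ∨ K < (common H x y).card] :
    (S.filter (fun y => H.Adj x y ∨ P0 y ∨ K < (common H x y).card)).card ≤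
      D + A + D ^ 2 / (K + 1) := by
  classical
  refine le_trans (card_le_card (t := H.neighborFinset x ∪ S.filter P0 ∪
    S.filter (fun y => K < (common H x y).card)) ?_) ?_
  · intro y hy
    obtain ⟨hyS, h | h | h⟩ := mem_filter.1 hy
    · exact mem_union_left _ (mem_union_left _ (by simpa using h))
    · exact mem_union_left _ (mem_union_right _ (mem_filter.2 ⟨hyS, h⟩))
    · exact mem_union_right _ (mem_filter.2 ⟨hyS, h⟩)
  refine (card_union_le _ _).trans (Nat.add_le_add ((card_union_le _ _).trans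
    (Nat.add_le_add ?_ hA)) ?_)
  · rw [SimpleGraph.card_neighborFinset_eq_degree]; exact hD x
  · rw [Nat.le_div_iff_mul_le (Nat.succ_pos K)]
    refine le_trans ?_ (sum_common_le hD x (S.filter (fun y => K < (common H x y).card)))
    calc _ = ∑ _y ∈ S.filter (fun y => K < (common H x y).card), (K + 1) := by
          rw [sum_const, smul_eq_mul]
      _ ≤ _ := sum_le_sum fun y hy => (mem_filter.1 hy).2

theorem double_count (x : V) (S : Finset V) (K : ℕ) :
    ∑ y ∈ S.filter (fun y => (common H x y).card ≤ K),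
      (common H x y).card * (common H x y).card ≤ K * D ^ 2 := by
  calc _ ≤ ∑ y ∈ S.filter (fun y => (common H x y).card ≤ K), K * (common H x y).card :=
        sum_le_sum fun y hy => Nat.mul_le_mul_right _ (mem_filter.1 hy).2
    _ ≤ _ := by
        rw [← mul_sum]
        exact Nat.mul_le_mul_left _ (sum_common_le hD x _)

theorem exists_pairing (P0 : V → V → Prop) [∀ x y, Decidable (P0 x y)] (L R : Finset V)
    (A : ℕ) (hA1 : ∀ x ∈ L, (R.filter (fun y => P0 x y)).card ≤ A)
    (hA2 : ∀ y ∈ R, (L.filter (fun x => P0 x y)).card ≤ A) (hcard : L.card = R.card) (K : ℕ)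
    (hnum : 16 * ((D + A + D ^ 2 / (K + 1)) * (L.card - 1) + K * D ^ 2) <
      L.card * (L.card - 1)) :
    ∃ σ : L ≃ R, (∀ i : L, ¬ H.Adj (i : V) (σ i : R)) ∧
      (∀ i : L, ¬ P0 (i : V) (σ i : R)) ∧
      ∀ i j : L, i ≠ j → ¬ (H.Adj (i : V) (j : V) ∧ H.Adj (i : V) (σ j : R) ∧
        H.Adj (σ i : R) (j : V) ∧ H.Adj (σ i : R) (σ j : R)) := by
  classical
  set P1 : V → V → Prop := fun x y =>
    H.Adj x y ∨ P0 x y ∨ K < (common H x y).card with hP1
  set E1 : Finset (Finset (L × R)) :=
    (univ.filter (fun p : L × R => P1 p.1 p.2)).image (fun p => {p}) with hE1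
  set E2 : Finset (Finset (L × R)) :=
    (univ.filter (fun pq : (L × R) × (L × R) => pq.1.1 ≠ pq.2.1 ∧ pq.1.2 ≠ pq.2.2 ∧
      (common H (pq.1.1 : V) (pq.1.2 : V)).card ≤ K ∧
      (common H (pq.2.1 : V) (pq.2.2 : V)).card ≤ K ∧
      (pq.2.1 : V) ∈ common H (pq.1.1 : V) (pq.1.2 : V) ∧
      (pq.2.2 : V) ∈ common H (pq.1.1 : V) (pq.1.2 : V))).image (fun pq => {pq.1, pq.2}) with hE2
  have hswap : ∀ pq : (L × R) × (L × R),
      (pq.2.1 : V) ∈ common H (pq.1.1 : V) (pq.1.2 : V) ∧
        (pq.2.2 : V) ∈ common H (pq.1.1 : V) (pq.1.2 : V) →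
      (pq.1.1 : V) ∈ common H (pq.2.1 : V) (pq.2.2 : V) ∧
        (pq.1.2 : V) ∈ common H (pq.2.1 : V) (pq.2.2 : V) := by
    intro pq h
    simp only [mem_common] at h ⊢
    exact ⟨⟨h.1.1.symm, h.2.1.symm⟩, h.1.2.symm, h.2.2.symm⟩
  have h1w : ∀ f ∈ E1, weight (↥L) f = L.card - 1 := by
    intro f hf
    obtain ⟨p, -, rfl⟩ := mem_image.1 hf
    simp [weight]
  have h2w : ∀ f ∈ E2, weight (↥L) f = 1 := by
    intro f hf
    obtain ⟨pq, hpq, rfl⟩ := mem_image.1 hf
    have hne : pq.1 ≠ pq.2 := fun h => (mem_filter.1 hpq).2.1 (congrArg Prod.fst h)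
    simp [weight, card_pair hne]
  have hcount : ∀ (T : Finset (Finset (L × R))) (A B : ℕ), (T ⊆ E1 ∪ E2) →
      (T ∩ E1).card ≤ A → (T ∩ E2).card ≤ B →
      ∑ f ∈ T, weight (↥L) f ≤ A * (L.card - 1) + B := by
    intro T A B hT hA hB
    calc ∑ f ∈ T, weight (↥L) f ≤ ∑ f ∈ (T ∩ E1) ∪ (T ∩ E2), weight (↥L) f := by
          refine sum_le_sum_of_subset fun f hf => ?_
          rcases mem_union.1 (hT hf) with h | h
          · exact mem_union_left _ (mem_inter.2 ⟨hf, h⟩)
          · exact mem_union_right _ (mem_inter.2 ⟨hf, h⟩)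
      _ ≤ ∑ f ∈ T ∩ E1, weight (↥L) f + ∑ f ∈ T ∩ E2, weight (↥L) f :=
          le_of_le_of_eq (Nat.le_add_right _ _) sum_union_inter
      _ ≤ _ := by
          refine Nat.add_le_add ?_ ?_
          · rw [sum_congr rfl (fun f hf => h1w f (mem_inter.1 hf).2), sum_const, smul_eq_mul]
            exact Nat.mul_le_mul_right _ hA
          · rw [sum_congr rfl (fun f hf => h2w f (mem_inter.1 hf).2), sum_const, smul_eq_mul,
              mul_one]
            exact hB
  have hcardL : Fintype.card (↥L) = L.card := Fintype.card_coe L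
  refine Exists.elim (lopsided (E1 ∪ E2) ?_ ((D + A + D ^ 2 / (K + 1)) * (L.card - 1) +
    K * D ^ 2) ?_ ?_ (by rwa [hcardL]) (Finset.equivOfCardEq hcard)) ?_
  · -- shapes
    intro e he
    rcases mem_union.1 he with h | h
    · obtain ⟨p, -, rfl⟩ := mem_image.1 h
      exact Or.inl ⟨p.1, p.2, rfl⟩
    · obtain ⟨pq, hpq, rfl⟩ := mem_image.1 h
      exact Or.inr ⟨_, _, _, _, (mem_filter.1 hpq).2.1, (mem_filter.1 hpq).2.2.1, rfl⟩
  · -- incidence at a left element
    intro a
    refine hcount _ _ _ (filter_subset _ _) ?_ ?_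
    · refine le_trans (card_le_card (t := (univ.filter (fun r : R => P1 a r)).image
        (fun r => ({(a, r)} : Finset (L × R)))) ?_) (card_image_le.trans ?_)
      · intro f hf
        obtain ⟨hf, hf1⟩ := mem_inter.1 hf
        obtain ⟨-, q, hq, rfl⟩ := mem_filter.1 hf
        obtain ⟨p, hp, rfl⟩ := mem_image.1 hf1
        rw [mem_singleton] at hq
        subst hq
        exact mem_image.2 ⟨q.2, mem_filter.2 ⟨mem_univ _, (mem_filter.1 hp).2⟩, rfl⟩
      · refine le_trans ?_ (single_count hD (a : V) R K A (P0 a) (hA1 _ a.2))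
        refine card_le_card_of_injOn (fun r : R => (r : V)) ?_ (fun x _ y _ h => Subtype.ext h)
        intro r hr
        exact mem_filter.2 ⟨r.2, (mem_filter.1 hr).2⟩
    · refine le_trans (card_le_card (t :=
        ((univ : Finset ↥R).filter (fun r : R => (common H (a : V) (r : V)).card ≤ K)).biUnion (fun r : R =>
          ((univ : Finset (↥L × ↥R)).filter (fun q : L × R => (q.1 : V) ∈ common H (a : V) (r : V) ∧
            (q.2 : V) ∈ common H (a : V) (r : V))).image (fun q : L × R => ({(a, r), q} : Finset (L × R))))) ?_)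
        (card_biUnion_le.trans ?_)
      · intro f hf
        obtain ⟨hf, hf2⟩ := mem_inter.1 hf
        obtain ⟨-, q, hq, rfl⟩ := mem_filter.1 hf
        obtain ⟨pq, hpq, rfl⟩ := mem_image.1 hf2
        obtain ⟨-, -, -, hK1, hK2, hc⟩ := mem_filter.1 hpq
        rw [mem_insert, mem_singleton] at hq
        rcases hq with rfl | rfl
        · exact mem_biUnion.2 ⟨pq.1.2, mem_filter.2 ⟨mem_univ _, hK1⟩,
            mem_image.2 ⟨pq.2, mem_filter.2 ⟨mem_univ _, hc⟩, rfl⟩⟩
        · exact mem_biUnion.2 ⟨pq.2.2, mem_filter.2 ⟨mem_univ _, hK2⟩,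
            mem_image.2 ⟨pq.1, mem_filter.2 ⟨mem_univ _, hswap pq hc⟩, pair_comm _ _⟩⟩
      · refine le_trans ?_ (double_count hD (a : V) R K)
        let F : Finset ↥R := univ.filter (fun r : R => (common H (a : V) (r : V)).card ≤ K)
        refine le_trans (b := ∑ r ∈ F, (common H (a : V) (r : V)).card *
          (common H (a : V) (r : V)).card) ?_ (le_trans (b := ∑ y ∈ F.image (fun r : R => (r : V)),
          (common H (a : V) y).card * (common H (a : V) y).card) (le_of_eq
            (sum_image (f := fun y => (common H (a : V) y).card * (common H (a : V) y).card)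
              (g := fun r : R => (r : V)) (fun u _ w _ h => Subtype.ext h)).symm) (sum_le_sum_of_subset ?_))
        · refine sum_le_sum fun r _ => card_image_le.trans ?_
          rw [← card_product]
          refine card_le_card_of_injOn (fun q : L × R => ((q.1 : V), (q.2 : V))) ?_ ?_
          · intro q hq
            exact mem_product.2 (mem_filter.1 hq).2
          · intro x _ y _ h
            exact Prod.ext (Subtype.ext (congrArg Prod.fst h)) (Subtype.ext (congrArg Prod.snd h))
        · intro y hy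
          obtain ⟨r, hr, rfl⟩ := mem_image.1 hy
          exact mem_filter.2 ⟨r.2, (mem_filter.1 hr).2⟩
  · -- incidence at a right element
    intro b
    refine hcount _ _ _ (filter_subset _ _) ?_ ?_
    · refine le_trans (card_le_card (t := (univ.filter (fun i : L => P1 i b)).image
        (fun i => ({(i, b)} : Finset (L × R)))) ?_) (card_image_le.trans ?_)
      · intro f hf
        obtain ⟨hf, hf1⟩ := mem_inter.1 hf
        obtain ⟨-, q, hq, rfl⟩ := mem_filter.1 hf
        obtain ⟨p, hp, rfl⟩ := mem_image.1 hf1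
        rw [mem_singleton] at hq
        subst hq
        exact mem_image.2 ⟨q.1, mem_filter.2 ⟨mem_univ _, (mem_filter.1 hp).2⟩, rfl⟩
      · refine le_trans ?_ (single_count hD (b : V) L K A (fun x => P0 x b) (hA2 _ b.2))
        refine card_le_card_of_injOn (fun i : L => (i : V)) ?_ (fun x _ y _ h => Subtype.ext h)
        intro i hi
        refine mem_filter.2 ⟨i.2, ?_⟩
        rcases (mem_filter.1 hi).2 with h | h | h
        · exact Or.inl h.symm
        · exact Or.inr (Or.inl h)
        · refine Or.inr (Or.inr ?_)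
          rwa [common, inter_comm]
    · refine le_trans (card_le_card (t :=
        ((univ : Finset ↥L).filter (fun i : L => (common H (b : V) (i : V)).card ≤ K)).biUnion (fun i : L =>
          ((univ : Finset (↥L × ↥R)).filter (fun q : L × R => (q.1 : V) ∈ common H (b : V) (i : V) ∧
            (q.2 : V) ∈ common H (b : V) (i : V))).image (fun q : L × R => ({(i, b), q} : Finset (L × R))))) ?_)
        (card_biUnion_le.trans ?_)
      · intro f hf
        obtain ⟨hf, hf2⟩ := mem_inter.1 hf
        obtain ⟨-, q, hq, rfl⟩ := mem_filter.1 hf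
        obtain ⟨pq, hpq, rfl⟩ := mem_image.1 hf2
        obtain ⟨-, -, -, hK1, hK2, hc⟩ := mem_filter.1 hpq
        have hcm : ∀ x y : V, common H x y = common H y x := fun x y => inter_comm _ _
        rw [mem_insert, mem_singleton] at hq
        rcases hq with rfl | rfl
        · refine mem_biUnion.2 ⟨pq.1.1, mem_filter.2 ⟨mem_univ _, by rwa [hcm]⟩,
            mem_image.2 ⟨pq.2, mem_filter.2 ⟨mem_univ _, by rwa [hcm]⟩, rfl⟩⟩
        · refine mem_biUnion.2 ⟨pq.2.1, mem_filter.2 ⟨mem_univ _, by rwa [hcm]⟩,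
            mem_image.2 ⟨pq.1, mem_filter.2 ⟨mem_univ _, by rw [hcm]; exact hswap pq hc⟩,
              pair_comm _ _⟩⟩
      · refine le_trans ?_ (double_count hD (b : V) L K)
        let F : Finset ↥L := univ.filter (fun r : L => (common H (b : V) (r : V)).card ≤ K)
        refine le_trans (b := ∑ r ∈ F, (common H (b : V) (r : V)).card *
          (common H (b : V) (r : V)).card) ?_ (le_trans (b := ∑ y ∈ F.image (fun r : L => (r : V)),
          (common H (b : V) y).card * (common H (b : V) y).card) (le_of_eq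
            (sum_image (f := fun y => (common H (b : V) y).card * (common H (b : V) y).card)
              (g := fun r : L => (r : V)) (fun u _ w _ h => Subtype.ext h)).symm) (sum_le_sum_of_subset ?_))
        · refine sum_le_sum fun r _ => card_image_le.trans ?_
          rw [← card_product]
          refine card_le_card_of_injOn (fun q : L × R => ((q.1 : V), (q.2 : V))) ?_ ?_
          · intro q hq
            exact mem_product.2 (mem_filter.1 hq).2
          · intro x _ y _ h
            exact Prod.ext (Subtype.ext (congrArg Prod.fst h)) (Subtype.ext (congrArg Prod.snd h))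
        · intro y hy
          obtain ⟨r, hr, rfl⟩ := mem_image.1 hy
          exact mem_filter.2 ⟨r.2, (mem_filter.1 hr).2⟩
  intro σ hσ
  have hgood : ∀ i : L, ¬ P1 (i : V) (σ i : R) := fun i h =>
    hσ _ (mem_union_left _ (mem_image.2 ⟨(i, σ i), mem_filter.2 ⟨mem_univ _, h⟩, rfl⟩))
      (by simp)
  refine ⟨σ, fun i h => hgood i (Or.inl h), fun i h => hgood i (Or.inr (Or.inl h)),
    fun i j hij h => ?_⟩
  have hK : ∀ i : L, (common H (i : V) (σ i : R)).card ≤ K := fun i =>
    not_lt.1 fun h => hgood i (Or.inr (Or.inr h))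
  refine hσ _ (mem_union_right _ (mem_image.2 ⟨((i, σ i), (j, σ j)), mem_filter.2 ⟨mem_univ _,
    hij, fun e => hij (σ.injective e), hK i, hK j, mem_common H |>.2 ⟨h.1, h.2.2.1⟩,
    mem_common H |>.2 ⟨h.2.1, h.2.2.2⟩⟩, rfl⟩)) ?_
  intro p hp
  simp only [mem_insert, mem_singleton] at hp
  rcases hp with rfl | rfl <;> rfl

end Vale.Agent.P060
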