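import Vale.Agent.P060.Dense
import Vale.Agent.P060.Large

/-! Graphs of minimum degree `n - c n^{3/4}` (P060). -/

open Finset

namespace Vale.Agent.P060

variable {V : Type} [Fintype V] [DecidableEq V]

theorem hasMinor_large (G : SimpleGraph V) [DecidableRel G.Adj] (D : ℕ)
    (hD : ∀ v, Gᶜ.degree v ≤ D) (U L R : Finset V) (hUL : Disjoint U L) (hUR : Disjoint U R)
    (hLR : Disjoint L R) (hcard : L.card = R.card)
    (hsum : U.card + L.card + R.card = Fintype.card V)
    (hclique : ∀ u ∈ U, ∀ w ∈ U, u ≠ w → G.Adj u w)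
    (hn : 10 ^ 12 * D ^ 4 ≤ Fintype.card V ^ 3) (hu : 1000 * (U.card * D) ≤ Fintype.card V) :
    HasMinor G (U.card + L.card) := by
  classical
  have hadj : ∀ x y : V, x ≠ y → ¬ Gᶜ.Adj x y → G.Adj x y := fun x y hne h => by
    simpa [SimpleGraph.compl_adj, hne] using h
  have hLne : ∀ (i : L) (j : R), (i : V) ≠ j := fun i j h => disjoint_left.1 hLR i.2 (h ▸ j.2)
  have hfin : ∀ σ : L ≃ R, (∀ i : L, ¬ Gᶜ.Adj (i : V) (σ i : R)) →
      (∀ u ∈ U, ∀ i : L, ¬ (Gᶜ.Adj u (i : V) ∧ Gᶜ.Adj u (σ i : R))) →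
      (∀ i j : L, i ≠ j → ¬ (Gᶜ.Adj (i : V) (j : V) ∧ Gᶜ.Adj (i : V) (σ j : R) ∧
        Gᶜ.Adj (σ i : R) (j : V) ∧ Gᶜ.Adj (σ i : R) (σ j : R))) →
      HasMinor G (U.card + L.card) := by
    intro σ h1 h2 h3
    refine hasMinor_of_pairs G U L R hUL hUR hLR σ hclique
      (fun i => hadj _ _ (hLne i _) (h1 i)) ?_ ?_
    · intro u hu i
      have n1 : u ≠ (i : V) := fun h => disjoint_left.1 hUL hu (h ▸ i.2)
      have n2 : u ≠ ((σ i : R) : V) := fun h => disjoint_left.1 hUR hu (h ▸ (σ i).2)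
      by_contra h
      rw [not_or] at h
      exact h2 u hu i ⟨⟨n1, h.1⟩, n2, h.2⟩
    · intro i j hij
      have n1 : (i : V) ≠ j := fun h => hij (Subtype.ext h)
      have n2 : ((σ i : R) : V) ≠ (σ j : R) := fun h => hij (σ.injective (Subtype.ext h))
      by_contra h
      simp only [not_or] at h
      exact h3 i j hij ⟨⟨n1, h.1⟩, ⟨hLne i _, h.2.1⟩, ⟨(hLne j _).symm, h.2.2.1⟩, n2, h.2.2.2⟩
  rcases Nat.eq_zero_or_pos D with rfl | hpos
  · have hno : ∀ x y, ¬ Gᶜ.Adj x y := by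
      intro x y h
      have h1 := hD x
      have h2 : 0 < Gᶜ.degree x := (Gᶜ.degree_pos_iff_exists_adj x).2 ⟨y, h⟩
      omega
    exact hfin (Finset.equivOfCardEq hcard) (fun i => hno _ _) (fun u _ i h => hno _ _ h.1)
      (fun i j _ h => hno _ _ h.1)
  set n := Fintype.card V with hndef
  set m := L.card with hm
  have hD1 : 1000 * D ≤ n := by
    by_contra hlt
    push Not at hlt
    have h1 : n ^ 4 < (1000 * D) ^ 4 := Nat.pow_lt_pow_left hlt (by norm_num)
    have e1 : (1000 * D) ^ 4 = 10 ^ 12 * D ^ 4 := by ring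
    have e2 : n * n ^ 3 = n ^ 4 := by ring
    have h2 : n * n ^ 3 < 10 ^ 12 * D ^ 4 := by omega
    rcases Nat.eq_zero_or_pos n with h | h
    · rw [h] at hn h2
      simp at hn h2
      omega
    · have : n ^ 3 ≤ n * n ^ 3 := Nat.le_mul_of_pos_left _ h
      omega
  have hu1 : 1000 * U.card ≤ n := le_trans (Nat.mul_le_mul_left _ (Nat.le_mul_of_pos_right _ hpos)) hu
  have hm1 : n ≤ 3 * m := by omega
  have hm2 : 300 ≤ m := by omega
  set K := 128 * D ^ 2 / m with hKdef
  have hK1 : m * K ≤ 128 * D ^ 2 := Nat.mul_div_le _ _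
  have hK2 : 128 * D ^ 2 < m * (K + 1) := Nat.lt_mul_div_succ _ (by omega)
  set q := D ^ 2 / (K + 1) with hqdef
  have hq : 128 * q ≤ m := by
    have h1 : q * (K + 1) ≤ D ^ 2 := Nat.div_mul_le_self _ _
    by_contra hlt
    push Not at hlt
    have : m * (K + 1) < 128 * q * (K + 1) := Nat.mul_lt_mul_of_pos_right hlt (Nat.succ_pos _)
    nlinarith
  have hA100 : 100 * (D + U.card * D + q) ≤ 2 * m := by omega
  have hB : 1000 * (K * D ^ 2) ≤ m * m := by
    have h1 : m * (K * D ^ 2) ≤ 128 * D ^ 4 := by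
      calc m * (K * D ^ 2) = m * K * D ^ 2 := by ring
        _ ≤ 128 * D ^ 2 * D ^ 2 := Nat.mul_le_mul_right _ hK1
        _ = _ := by ring
    have h3 : n ^ 3 ≤ (3 * m) ^ 3 := Nat.pow_le_pow_left hm1 3
    by_contra hlt
    push Not at hlt
    have h4 : m * (m * m) < m * (1000 * (K * D ^ 2)) := Nat.mul_lt_mul_of_pos_left hlt (by omega)
    have h5 : (3 * m) ^ 3 = 27 * (m * (m * m)) := by ring
    have h6 : m * (1000 * (K * D ^ 2)) = 1000 * (m * (K * D ^ 2)) := by ring
    omega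
  have hA : ∀ x, ∀ S : Finset V,
      (S.filter (fun y => ∃ u ∈ U, Gᶜ.Adj u x ∧ Gᶜ.Adj u y)).card ≤ U.card * D := by
    intro x S
    refine le_trans (card_le_card (t := U.biUnion fun u => Gᶜ.neighborFinset u) ?_)
      (card_biUnion_le_card_mul _ _ _ fun u _ => ?_)
    · intro y hy
      obtain ⟨-, u, hu, -, h⟩ := mem_filter.1 hy
      exact mem_biUnion.2 ⟨u, hu, by rwa [SimpleGraph.mem_neighborFinset]⟩
    · rw [SimpleGraph.card_neighborFinset_eq_degree]; exact hD u
  obtain ⟨σ, h1, h2, h3⟩ := exists_pairing (H := Gᶜ) hD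
    (fun x y => ∃ u ∈ U, Gᶜ.Adj u x ∧ Gᶜ.Adj u y) L R (U.card * D) (fun x _ => hA x R)
    (fun y _ => by
      refine le_trans (card_le_card ?_) (hA y L)
      intro x hx
      obtain ⟨hxL, u, hu, k1, k2⟩ := mem_filter.1 hx
      exact mem_filter.2 ⟨hxL, u, hu, k2, k1⟩) hcard K (by
    rw [← hqdef, ← hm]
    obtain ⟨k, hk⟩ : ∃ k, m = k + 1 := ⟨m - 1, by omega⟩
    rw [hk] at hA100 hB hm2 ⊢
    simp only [Nat.add_sub_cancel]
    nlinarith)
  exact hfin σ h1 (fun u hu i h => h2 i ⟨u, hu, h⟩) h3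

/-- the complement has a nearly perfect matching -/
theorem of_nearMatching (G : SimpleGraph V) [DecidableRel G.Adj] (D : ℕ)
    (hD : ∀ v, Gᶜ.degree v ≤ D) (hn : 10 ^ 12 * D ^ 4 ≤ Fintype.card V ^ 3)
    (M : Gᶜ.Subgraph) (hM : M.IsMatching)
    (hu : 1000 * ((Fintype.card V - M.verts.ncard) * D) ≤ Fintype.card V) :
    ∃ t, G.Colorable t ∧ HasMinor G t := by
  classical
  obtain ⟨p, hp, hmax, hbest⟩ := exists_max_matchInv Gᶜ
  set q : V → V := fun x => if h : x ∈ M.verts then (hM h).choose else x with hq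
  have hqM : ∀ x (h : x ∈ M.verts), M.Adj x (q x) := by
    intro x h; simp only [hq, dif_pos h]; exact (hM h).choose_spec.1
  have hqm : IsMatchInv Gᶜ q := by
    intro x
    by_cases h : x ∈ M.verts
    · have h1 := hqM x h
      exact ⟨(hM (M.edge_vert h1.symm)).unique (hqM _ (M.edge_vert h1.symm)) h1.symm,
        fun _ => h1.adj_sub⟩
    · have : q x = x := by simp [hq, h]
      rw [this]
      exact ⟨this, fun h' => absurd rfl h'⟩
  have hcov : M.verts.ncard ≤ (univ.filter (fun x => p x ≠ x)).card := by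
    refine le_trans ?_ (hbest q hqm)
    rw [← Set.ncard_coe_finset]
    refine Set.ncard_le_ncard ?_ (Set.toFinite _)
    intro x hx
    simpa using (hqM x hx).adj_sub.ne.symm
  obtain ⟨U, L, R, hUL, hUR, hLR, hcard, hsum, hU, hcol⟩ := exists_split G p hp
  have hUcard : U.card + (univ.filter (fun x => p x ≠ x)).card = Fintype.card V := by
    rw [show U = univ.filter (fun x => p x = x) by ext x; simp [hU],
      card_filter_add_card_filter_not, card_univ]
  refine ⟨_, hcol, hasMinor_large G D hD U L R hUL hUR hLR hcard hsum ?_ hn ?_⟩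
  · intro u hu' w hw hne
    by_contra h
    exact hmax u w ((hU u).1 hu') ((hU w).1 hw) ⟨hne, h⟩
  · refine le_trans (Nat.mul_le_mul_left _ (Nat.mul_le_mul_right _ ?_)) hu
    omega

/-- a complete minor on half of the vertices, rounded up -/
theorem hasMinor_half (G : SimpleGraph V) [DecidableRel G.Adj] (D : ℕ)
    (hD : ∀ v, Gᶜ.degree v ≤ D) (hn : 10 ^ 12 * D ^ 4 ≤ Fintype.card V ^ 3) :
    HasMinor G ((Fintype.card V + 1) / 2) := by
  classical
  set n := Fintype.card V with hndef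
  obtain ⟨U, -, hU⟩ := Finset.exists_subset_card_eq (s := (univ : Finset V)) (n := n % 2)
    (by rw [card_univ, ← hndef]; omega)
  obtain ⟨L, hLsub, hL⟩ := Finset.exists_subset_card_eq (s := (univ : Finset V) \ U) (n := n / 2)
    (by rw [card_sdiff_of_subset (subset_univ U), card_univ, ← hndef]; omega)
  set R := ((univ : Finset V) \ U) \ L with hR
  have hRc : R.card = n / 2 := by
    rw [hR, card_sdiff_of_subset hLsub, card_sdiff_of_subset (subset_univ U), card_univ, ← hndef]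
    omega
  have hd1 : Disjoint U L := disjoint_left.2 fun x hx hy => (mem_sdiff.1 (hLsub hy)).2 hx
  have hd2 : Disjoint U R := disjoint_left.2 fun x hx hy => (mem_sdiff.1 (mem_sdiff.1 hy).1).2 hx
  have hd3 : Disjoint L R := disjoint_left.2 fun x hx hy => (mem_sdiff.1 hy).2 hx
  have hD1 : 1000 * (U.card * D) ≤ n := by
    by_contra hlt
    push Not at hlt
    have h0 : U.card * D ≤ D := by
      calc U.card * D ≤ 1 * D := Nat.mul_le_mul_right _ (by omega)
        _ = D := one_mul D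
    have h1 : n ^ 4 < (1000 * D) ^ 4 := Nat.pow_lt_pow_left (by omega) (by norm_num)
    have h2 : (1000 * D) ^ 4 = 10 ^ 12 * D ^ 4 := by ring
    rcases Nat.eq_zero_or_pos n with h | h
    · have : U.card = 0 := by omega
      simp [this] at hlt
    · have h3 : n ^ 3 ≤ n * n ^ 3 := Nat.le_mul_of_pos_left _ h
      have h4 : n * n ^ 3 = n ^ 4 := by ring
      omega
  have hres := hasMinor_large G D hD U L R hd1 hd2 hd3 (by omega) (by omega) ?_ hn hD1
  · exact hres.mono (by omega)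
  · intro u hu w hw hne
    exact absurd (card_le_one.1 (by omega : U.card ≤ 1) u hu w hw) hne

end Vale.Agent.P060
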