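import Mathlib

/-! Definitions for P060. -/

namespace Vale.Agent.P060

/-- `G` has a complete minor with `t` branch sets: pairwise disjoint nonempty connected vertex
sets, any two joined by an edge. -/
def HasMinor {V : Type*} (G : SimpleGraph V) (t : ℕ) : Prop :=
  ∃ B : Fin t → Set V, (∀ i, (B i).Nonempty) ∧ (∀ i, (G.induce (B i)).Connected) ∧
    (∀ i j, i ≠ j → Disjoint (B i) (B j)) ∧ ∀ i j, i ≠ j → ∃ x ∈ B i, ∃ y ∈ B j, G.Adj x y

end Vale.Agent.P060
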