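import Vale.Agent.P060.Omega

/-! For each `D`, Hadwiger's conjecture with complement degree at most `D` is a finite check (P060). -/

open Finset

namespace Vale.Agent.P060

variable {V : Type} [Fintype V] [DecidableEq V]

theorem add_universal (G : SimpleGraph V) (v : V) (huniv : ∀ w, w ≠ v → G.Adj v w) {t : ℕ}
    (hc : (G.comap (Subtype.val : {x // x ≠ v} → V)).Colorable t)
    (hm : HasMinor (G.comap (Subtype.val : {x // x ≠ v} → V)) t) :
    G.Colorable (t + 1) ∧ HasMinor G (t + 1) := by
  classical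
  constructor
  · obtain ⟨c⟩ := hc
    let col : V → Fin (t + 1) := fun x => if h : x = v then Fin.last t else (c ⟨x, h⟩).castSucc
    refine ⟨SimpleGraph.Coloring.mk col fun {x y} hadj he => ?_⟩
    simp only [col] at he
    split_ifs at he with hx hy hy
    · exact hadj.ne (hx.trans hy.symm)
    · exact Fin.castSucc_ne_last _ he.symm
    · exact Fin.castSucc_ne_last _ he
    · exact c.valid (v := ⟨x, hx⟩) (w := ⟨y, hy⟩) hadj (Fin.castSucc_injective _ he)
  · obtain ⟨B, h1, h2, h3, h4⟩ := hm
    let B' : Fin (t + 1) → Set V := Fin.cases {v} fun i => Subtype.val '' B i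
    have hBv : ∀ i : Fin t, v ∉ Subtype.val '' B i := by
      rintro i ⟨x, -, hx⟩
      exact x.2 hx
    refine ⟨B', ?_, ?_, ?_, ?_⟩
    · refine Fin.cases (by simp [B']) fun i => ?_
      simpa [B'] using h1 i
    · refine Fin.cases ?_ fun i => ?_
      · refine (SimpleGraph.connected_iff_exists_forall_reachable _).2 ⟨⟨v, rfl⟩, fun b => ?_⟩
        rw [show b = ⟨v, rfl⟩ from Subtype.ext b.2]
      · refine SimpleGraph.Connected.map
          { toFun := fun x => ⟨x.1.1, Set.mem_image_of_mem _ x.2⟩, map_rel' := fun h => h } ?_ (h2 i)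
        rintro ⟨_, x, hx, rfl⟩
        exact ⟨⟨x, hx⟩, rfl⟩
    · refine Fin.cases (Fin.cases (fun h => absurd rfl h) fun j _ => ?_) fun i => Fin.cases (fun _ => ?_) fun j h => ?_
      · simpa [B'] using hBv j
      · simpa [B'] using hBv i
      · simpa [B', Set.disjoint_image_iff Subtype.val_injective] using
          h3 i j fun e => h (by rw [e])
    · refine Fin.cases (Fin.cases (fun h => absurd rfl h) fun j _ => ?_) fun i => Fin.cases (fun _ => ?_) fun j h => ?_
      · obtain ⟨x, hx⟩ := h1 j
        exact ⟨v, rfl, x.1, Set.mem_image_of_mem _ hx, huniv _ x.2⟩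
      · obtain ⟨x, hx⟩ := h1 i
        exact ⟨x.1, Set.mem_image_of_mem _ hx, v, rfl, (huniv _ x.2).symm⟩
      · obtain ⟨x, hx, y, hy, hadj⟩ := h4 i j fun e => h (by rw [e])
        exact ⟨x.1, Set.mem_image_of_mem _ hx, y.1, Set.mem_image_of_mem _ hy, hadj⟩

theorem hadwiger_finite_check (D : ℕ)
    (small : ∀ (W : Type) [Fintype W] [DecidableEq W] (G : SimpleGraph W) [DecidableRel G.Adj],
      Fintype.card W ^ 3 ≤ 10 ^ 13 * D ^ 4 * (D + 1) ^ 3 → (∀ v, Gᶜ.degree v ≤ D) →
      ∃ t, G.Colorable t ∧ HasMinor G t) :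
    ∀ (n : ℕ) (V : Type) [Fintype V] [DecidableEq V] (G : SimpleGraph V) [DecidableRel G.Adj],
      Fintype.card V = n → (∀ v, Gᶜ.degree v ≤ D) → ∃ t, G.Colorable t ∧ HasMinor G t := by
  intro n
  induction n with
  | zero =>
    intro V _ _ G _ hn hD
    exact small V G (by simp [hn]) hD
  | succ n ih =>
    intro V _ _ G _ hn hD
    classical
    by_cases hsm : Fintype.card V ^ 3 ≤ 10 ^ 13 * D ^ 4 * (D + 1) ^ 3
    · exact small V G hsm hD
    by_cases hall : ∀ v, 0 < Gᶜ.degree v
    · refine hadwiger_nonuniversal G D hD ?_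
      rw [filter_true_of_mem fun v _ => hall v, card_univ]
      omega
    push Not at hall
    obtain ⟨v, hv⟩ := hall
    have huniv : ∀ w, w ≠ v → G.Adj v w := by
      intro w hw
      by_contra h
      have := (Gᶜ.degree_pos_iff_exists_adj v).2 ⟨w, hw.symm, h⟩
      omega
    set G' := G.comap (Subtype.val : {x // x ≠ v} → V) with hG'
    have hD' : ∀ x, G'ᶜ.degree x ≤ D := by
      intro x
      refine le_trans ?_ (hD x.1)
      rw [← SimpleGraph.card_neighborFinset_eq_degree, ← SimpleGraph.card_neighborFinset_eq_degree]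
      refine card_le_card_of_injOn Subtype.val ?_ Subtype.val_injective.injOn
      intro y hy
      simp only [mem_coe, SimpleGraph.mem_neighborFinset, SimpleGraph.compl_adj, hG',
        SimpleGraph.comap_adj, ne_eq] at hy ⊢
      exact ⟨fun e => hy.1 (Subtype.ext e), hy.2⟩
    obtain ⟨t, hc, hm⟩ := ih {x // x ≠ v} G' (by
      rw [Fintype.card_subtype_compl, Fintype.card_subtype_eq, hn]; omega) hD'
    exact ⟨t + 1, add_universal G v huniv hc hm⟩

end Vale.Agent.P060
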