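import Vale.Agent.P060.Big
import Vale.Agent.P060.Berge

/-! Hadwiger's conjecture when the complement's degree is small next to `n - ω` (P060). -/

open Finset

namespace Vale.Agent.P060

variable {V : Type} [Fintype V] [DecidableEq V]

theorem choose_K {D m A : ℕ} (hD : 1 ≤ D) (hA : 50 * A ≤ m) (h : 10 ^ 5 * D ^ 4 ≤ m ^ 3) :
    ∃ K, 16 * ((D + A + D ^ 2 / (K + 1)) * (m - 1) + K * D ^ 2) < m * (m - 1) := by
  have h40 : 40 * D ≤ m := by
    by_contra hlt
    push Not at hlt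
    have h1 := Nat.pow_lt_pow_left hlt (show 3 ≠ 0 by norm_num)
    have h2 : (40 * D) ^ 3 = 64000 * D ^ 3 := by ring
    have h3 : D ^ 3 ≤ D ^ 4 := Nat.pow_le_pow_right hD (by norm_num)
    omega
  have hm : 46 ≤ m := by
    by_contra hlt
    push Not at hlt
    have h1 : m ^ 3 ≤ 45 ^ 3 := Nat.pow_le_pow_left (by omega) 3
    have h2 : 1 ≤ D ^ 4 := Nat.one_le_pow _ _ hD
    omega
  refine ⟨128 * D ^ 2 / m, ?_⟩
  have hK1 : m * (128 * D ^ 2 / m) ≤ 128 * D ^ 2 := Nat.mul_div_le _ _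
  have hK2 : 128 * D ^ 2 < m * (128 * D ^ 2 / m + 1) := Nat.lt_mul_div_succ _ (by omega)
  set K := 128 * D ^ 2 / m
  set q := D ^ 2 / (K + 1)
  have hq : 128 * q ≤ m := by
    have h1 : q * (K + 1) ≤ D ^ 2 := Nat.div_mul_le_self _ _
    by_contra hlt
    push Not at hlt
    have := Nat.mul_lt_mul_of_pos_right hlt (Nat.succ_pos K)
    nlinarith
  have hB : 700 * (K * D ^ 2) ≤ m * m := by
    have h1 : m * (K * D ^ 2) ≤ 128 * D ^ 4 := by
      calc m * (K * D ^ 2) = m * K * D ^ 2 := by ring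
        _ ≤ 128 * D ^ 2 * D ^ 2 := Nat.mul_le_mul_right _ hK1
        _ = _ := by ring
    by_contra hlt
    push Not at hlt
    have h4 := Nat.mul_lt_mul_of_pos_left hlt (show 0 < m by omega)
    have h5 : m ^ 3 = m * (m * m) := by ring
    have h6 : m * (700 * (K * D ^ 2)) = 700 * (m * (K * D ^ 2)) := by ring
    omega
  have hlin : 10 * (16 * (D + A + q)) ≤ 9 * m := by omega
  have h1 : 10 * (16 * (D + A + q)) * (m - 1) ≤ 9 * m * (m - 1) := Nat.mul_le_mul_right _ hlin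
  obtain ⟨l, rfl⟩ : ∃ l, m = l + 1 := ⟨m - 1, by omega⟩
  simp only [Nat.add_sub_cancel] at h1 ⊢
  nlinarith

theorem hadwiger_omega (G : SimpleGraph V) [DecidableRel G.Adj] (D : ℕ)
    (hD : ∀ v, Gᶜ.degree v ≤ D)
    (hn : 10 ^ 13 * D ^ 4 ≤ (Fintype.card V - G.cliqueNum) ^ 3) :
    ∃ t, G.Colorable t ∧ HasMinor G t := by
  classical
  have hadj : ∀ x y : V, x ≠ y → ¬ Gᶜ.Adj x y → G.Adj x y := fun x y hne h => by
    simpa [SimpleGraph.compl_adj, hne] using h
  obtain ⟨p, hp, -, hbest⟩ := exists_max_matchInv Gᶜ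
  obtain ⟨U, L0, R0, -, -, -, hLR0, hsum, hU, hcol⟩ := exists_split G p hp
  rcases Nat.eq_zero_or_pos D with rfl | hDpos
  · refine ⟨_, G.colorable_of_fintype, fun i => {(Fintype.equivFin V).symm i}, by simp, fun i => ?_,
      fun i j h => by simp [h], fun i j h => ⟨_, rfl, _, rfl, hadj _ _ ?_ fun e => ?_⟩⟩
    · refine (SimpleGraph.connected_iff_exists_forall_reachable _).2 ⟨⟨_, rfl⟩, fun b => ?_⟩
      rw [show b = ⟨_, rfl⟩ from Subtype.ext b.2]
    · exact fun e => h ((Fintype.equivFin V).symm.injective e)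
    · have h2 : 0 < Gᶜ.degree ((Fintype.equivFin V).symm i) :=
        (Gᶜ.degree_pos_iff_exists_adj _).2 ⟨_, e⟩
      have h3 := hD ((Fintype.equivFin V).symm i)
      omega
  obtain ⟨Z, S, hZS, hind, hone, hdef⟩ := exists_reps Gᶜ p hp hbest
  have hclique : ∀ u ∈ Z, ∀ w ∈ Z, u ≠ w → G.Adj u w := fun u hu w hw hne =>
    hadj u w hne (hind u hu w hw)
  have hω : Z.card ≤ G.cliqueNum :=
    SimpleGraph.IsClique.card_le_cliqueNum (tc := fun u hu w hw hne => hclique u hu w hw hne)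
  set T : Finset V := (univ \ Z) \ S with hT
  have hSW : S ⊆ univ \ Z := fun x hx =>
    mem_sdiff.2 ⟨mem_univ _, fun hz => disjoint_left.1 hZS hz hx⟩
  have hWc : (univ \ Z).card + Z.card = Fintype.card V := by
    rw [card_sdiff_add_card_eq_card (subset_univ Z), card_univ]
  have hTc : T.card + S.card = (univ \ Z).card := card_sdiff_add_card_eq_card hSW
  have hW3 : 10 ^ 13 * D ^ 4 ≤ (univ \ Z).card ^ 3 :=
    hn.trans (Nat.pow_le_pow_left (by omega) 3)
  set w := (univ \ Z).card with hw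
  have hbigW : 20000 * D ≤ w := by
    by_contra hlt
    push Not at hlt
    have h1 := Nat.pow_lt_pow_left hlt (show 3 ≠ 0 by norm_num)
    have h2 : (20000 * D) ^ 3 = 8 * 10 ^ 12 * D ^ 3 := by ring
    have h3 : D ^ 3 ≤ D ^ 4 := Nat.pow_le_pow_right hDpos (by norm_num)
    omega
  have hUd : (univ.filter (fun x => p x = x)).card = U.card := by congr 1; ext x; simp [hU]
  -- it suffices to find `k` good pairs, `2 (|Z| + k) + 1 ≥ 2 |Z| + |T|`
  suffices key : ∃ k, T.card ≤ 2 * k + 1 ∧ HasMinor G (Z.card + k) by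
    obtain ⟨k, hk, hminor⟩ := key
    exact ⟨_, hcol, hminor.mono (by omega)⟩
  -- two vertices outside `Z`, one in `T`, may share a neighbour in `Z`
  set P0 : V → V → Prop := fun x y => x ∈ T ∧ ∃ z ∈ Z, Gᶜ.Adj x z ∧ Gᶜ.Adj y z with hP0
  have hP1 : ∀ x : V, ∀ S' : Finset V, (S'.filter (fun y => P0 x y)).card ≤ D := by
    intro x S'
    by_cases hx : x ∈ T ∧ ∃ z ∈ Z, Gᶜ.Adj x z
    · obtain ⟨hxT, z, hz, hxz⟩ := hx
      refine le_trans (card_le_card ?_) ((Gᶜ.card_neighborFinset_eq_degree z).le.trans (hD z))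
      intro y hy
      obtain ⟨-, -, z', hz', h1, h2⟩ := mem_filter.1 hy
      have hxn : x ∉ Z ∧ x ∉ S := ⟨(mem_sdiff.1 (mem_sdiff.1 hxT).1).2, (mem_sdiff.1 hxT).2⟩
      rw [hone x hxn.1 hxn.2 z hz z' hz' hxz h1, SimpleGraph.mem_neighborFinset]
      exact h2.symm
    · rw [show S'.filter (fun y => P0 x y) = ∅ from filter_eq_empty_iff.2 fun y _ h =>
        hx ⟨h.1, h.2.elim fun z hz => ⟨z, hz.1, hz.2.1⟩⟩]
      simp
  -- pairs inside `L ∪ R` give a minor
  have hpairs : ∀ L R T' : Finset V, L ⊆ univ \ Z → R ⊆ univ \ Z → Disjoint L R →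
      L.card = R.card → T' ⊆ L → T' ⊆ T → ∀ A, (∀ y ∈ R, (L.filter (fun x => P0 x y)).card ≤ A) →
      D ≤ A → 50 * A ≤ L.card → 10 ^ 5 * D ^ 4 ≤ L.card ^ 3 → HasMinor G (Z.card + T'.card) := by
    intro L R T' hLW hRW hLR hcard hT'L hT'T A hA2 hDA hA hm
    obtain ⟨K, hK⟩ := choose_K hDpos hA hm
    obtain ⟨σ, h1, h2, h3⟩ := exists_pairing (H := Gᶜ) hD P0 L R A
      (fun x _ => (hP1 x R).trans hDA) hA2 hcard K hK
    let g : T' → V := fun i => (σ ⟨i, hT'L i.2⟩ : R)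
    have hg : Function.Injective g := fun i j h => by
      have := σ.injective (Subtype.ext h)
      simp only [Subtype.mk.injEq] at this
      exact Subtype.ext this
    let R' : Finset V := univ.image g
    let e : T' ≃ R' := Equiv.ofBijective (fun i => ⟨g i, mem_image.2 ⟨i, mem_univ _, rfl⟩⟩)
      ⟨fun i j h => hg (by simpa using h), fun ⟨y, hy⟩ => by
        obtain ⟨i, -, rfl⟩ := mem_image.1 hy
        exact ⟨i, rfl⟩⟩
    have hR' : R' ⊆ R := by
      intro y hy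
      obtain ⟨i, -, rfl⟩ := mem_image.1 hy
      exact (σ ⟨i, hT'L i.2⟩).2
    have hZn : ∀ x ∈ univ \ Z, x ∉ Z := fun x hx => (mem_sdiff.1 hx).2
    have hne : ∀ (i : T'), (i : V) ≠ g i := fun i h =>
      disjoint_left.1 hLR (hT'L i.2) (h ▸ hR' (mem_image.2 ⟨i, mem_univ _, rfl⟩))
    refine hasMinor_of_pairs G Z T' R' ?_ ?_ (hLR.mono hT'L hR') e hclique
      (fun i => hadj _ _ (hne i) (h1 ⟨i, hT'L i.2⟩)) ?_ ?_
    · exact disjoint_left.2 fun x hx hy => hZn x (hLW (hT'L hy)) hx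
    · exact disjoint_left.2 fun x hx hy => hZn x (hRW (hR' hy)) hx
    · intro u hu i
      have n1 : u ≠ (i : V) := fun h => hZn _ (hLW (hT'L i.2)) (h ▸ hu)
      have n2 : u ≠ g i := fun h => hZn _ (hRW (hR' (mem_image.2 ⟨i, mem_univ _, rfl⟩))) (h ▸ hu)
      by_contra h
      rw [not_or] at h
      exact h2 ⟨i, hT'L i.2⟩ ⟨hT'T i.2, u, hu, ⟨n1.symm, fun h' => h.1 h'.symm⟩,
        ⟨n2.symm, fun h' => h.2 h'.symm⟩⟩
    · intro i j hij
      have n1 : (i : V) ≠ j := fun h => hij (Subtype.ext h)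
      have n2 : g i ≠ g j := fun h => hij (hg h)
      have n3 : ∀ i j : T', (i : V) ≠ g j := fun i j h =>
        disjoint_left.1 hLR (hT'L i.2) (h ▸ hR' (mem_image.2 ⟨j, mem_univ _, rfl⟩))
      by_contra h
      simp only [not_or] at h
      exact h3 ⟨i, hT'L i.2⟩ ⟨j, hT'L j.2⟩ (fun h' => hij (Subtype.ext (congrArg Subtype.val h' :)))
        ⟨⟨n1, h.1⟩, ⟨n3 i j, h.2.1⟩, ⟨(n3 j i).symm, h.2.2.1⟩, n2, h.2.2.2⟩
  rcases le_or_gt (120 * T.card) w with hsmall | hlarge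
  · -- few vertices in `T`: each gets a partner
    have hTW : T ⊆ univ \ Z := sdiff_subset
    obtain ⟨L, hTL, hLW, hLc⟩ := exists_subsuperset_card_eq hTW
      (n := w / 2) (by omega) (by omega)
    obtain ⟨R, hRW, hRc⟩ := exists_subset_card_eq (s := (univ \ Z) \ L) (n := w / 2)
      (by rw [card_sdiff_of_subset hLW, hLc]; omega)
    refine ⟨T.card, by omega, hpairs L R T hLW (hRW.trans sdiff_subset)
      (disjoint_left.2 fun x hx hy => (mem_sdiff.1 (hRW hy)).2 hx) (by rw [hLc, hRc]) hTL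
      subset_rfl (T.card + D) (fun y _ => ?_) (by omega) (by omega) ?_⟩
    · exact le_trans (card_le_card fun x hx => (mem_filter.1 hx).2.1) (Nat.le_add_right _ _)
    · have h2 : w ≤ 3 * L.card := by omega
      have h3 := Nat.pow_le_pow_left h2 3
      have h4 : (3 * L.card) ^ 3 = 27 * L.card ^ 3 := by ring
      omega
  · -- many: pairs inside `T`
    obtain ⟨L, hLT, hLc⟩ := exists_subset_card_eq (s := T) (n := T.card / 2) (by omega)
    obtain ⟨R, hRT, hRc⟩ := exists_subset_card_eq (s := T \ L) (n := T.card / 2)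
      (by rw [card_sdiff_of_subset hLT]; omega)
    refine ⟨T.card / 2, by omega, ?_⟩
    rw [← hLc]
    refine hpairs L R L (hLT.trans sdiff_subset) ((hRT.trans sdiff_subset).trans sdiff_subset)
      (disjoint_left.2 fun x hx hy => (mem_sdiff.1 (hRT hy)).2 hx) (by rw [hLc, hRc]) subset_rfl
      hLT D (fun y hy => ?_) le_rfl (by omega) ?_
    · have hyT := (mem_sdiff.1 (hRT hy)).1
      refine le_trans (card_le_card ?_) (hP1 y L)
      intro x hx
      obtain ⟨hxL, -, z, hz, k1, k2⟩ := mem_filter.1 hx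
      exact mem_filter.2 ⟨hxL, hyT, z, hz, k2, k1⟩
    · have h2 : w ≤ 250 * L.card := by omega
      have h3 := Nat.pow_le_pow_left h2 3
      have h4 : (250 * L.card) ^ 3 = 15625000 * L.card ^ 3 := by ring
      omega

/-- at most `(D + 1) (n - ω)` vertices have a non-neighbour -/
theorem nonuniversal_le (G : SimpleGraph V) [DecidableRel G.Adj] (D : ℕ)
    (hD : ∀ v, Gᶜ.degree v ≤ D) :
    (univ.filter (fun v => 0 < Gᶜ.degree v)).card ≤ (D + 1) * (Fintype.card V - G.cliqueNum) := by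
  classical
  obtain ⟨Q, hQ⟩ := G.exists_isNClique_cliqueNum
  have hc : (univ \ Q).card = Fintype.card V - G.cliqueNum := by
    rw [card_sdiff_of_subset (subset_univ Q), card_univ, hQ.card_eq]
  rw [← hc]
  refine le_trans (card_le_card (t := (univ \ Q) ∪ (univ \ Q).biUnion fun x => Gᶜ.neighborFinset x) ?_)
    ((card_union_le _ _).trans ?_)
  · intro v hv
    obtain ⟨y, hy⟩ := (Gᶜ.degree_pos_iff_exists_adj v).1 (mem_filter.1 hv).2
    by_cases hvQ : v ∈ Q
    · refine mem_union_right _ (mem_biUnion.2 ⟨y, mem_sdiff.2 ⟨mem_univ _, fun hyQ => ?_⟩, ?_⟩)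
      · exact hy.2 (hQ.isClique hvQ hyQ hy.1)
      · rw [SimpleGraph.mem_neighborFinset]; exact hy.symm
    · exact mem_union_left _ (mem_sdiff.2 ⟨mem_univ _, hvQ⟩)
  · have := card_biUnion_le_card_mul (univ \ Q) (fun x => Gᶜ.neighborFinset x) D fun x _ => by
      rw [SimpleGraph.card_neighborFinset_eq_degree]; exact hD x
    rw [add_mul, one_mul, mul_comm D]
    omega

theorem hadwiger_nonuniversal (G : SimpleGraph V) [DecidableRel G.Adj] (D : ℕ)
    (hD : ∀ v, Gᶜ.degree v ≤ D)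
    (hn : 10 ^ 13 * D ^ 4 * (D + 1) ^ 3 ≤ (univ.filter (fun v => 0 < Gᶜ.degree v)).card ^ 3) :
    ∃ t, G.Colorable t ∧ HasMinor G t := by
  refine hadwiger_omega G D hD (Nat.le_of_mul_le_mul_right ?_ (show 0 < (D + 1) ^ 3 by positivity))
  refine hn.trans ((Nat.pow_le_pow_left (nonuniversal_le G D hD) 3).trans ?_)
  rw [mul_pow, mul_comm]

end Vale.Agent.P060
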