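import Vale.Agent.P060.Defs

/-! A minor from singletons and matched pairs; a colouring from a matching (P060). -/

open Finset

namespace Vale.Agent.P060

variable {V : Type} [Fintype V] [DecidableEq V]

theorem hasMinor_of_pairs (G : SimpleGraph V) (U L R : Finset V) (hUL : Disjoint U L)
    (hUR : Disjoint U R) (hLR : Disjoint L R) (σ : L ≃ R)
    (h0 : ∀ u ∈ U, ∀ w ∈ U, u ≠ w → G.Adj u w)
    (h1 : ∀ i : L, G.Adj (i : V) (σ i : R))
    (h2 : ∀ u ∈ U, ∀ i : L, G.Adj u (i : V) ∨ G.Adj u (σ i : R))
    (h3 : ∀ i j : L, i ≠ j → G.Adj (i : V) (j : V) ∨ G.Adj (i : V) (σ j : R) ∨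
      G.Adj (σ i : R) (j : V) ∨ G.Adj (σ i : R) (σ j : R)) :
    HasMinor G (U.card + L.card) := by
  classical
  let B : (↥U ⊕ ↥L) → Set V := Sum.elim (fun u => {(u : V)}) (fun i => {(i : V), ((σ i : R) : V)})
  have hc : Fintype.card (↥U ⊕ ↥L) = U.card + L.card := by simp
  let E := (Fintype.equivFin (↥U ⊕ ↥L)).trans (finCongr hc)
  have key1 : ∀ a, (B a).Nonempty := by rintro (u | i) <;> simp [B]
  have key2 : ∀ a, (G.induce (B a)).Connected := by
    rintro (u | i)
    · simp only [B, Sum.elim_inl]
      refine (SimpleGraph.connected_iff_exists_forall_reachable _).2 ⟨⟨(u : V), rfl⟩, fun b => ?_⟩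
      rw [show b = ⟨(u : V), rfl⟩ from Subtype.ext b.2]
    · simp only [B, Sum.elim_inr]
      exact SimpleGraph.induce_pair_connected_of_adj (h1 i)
  have key3 : ∀ a a', a ≠ a' → Disjoint (B a) (B a') := by
    have hul : ∀ (u : U) (i : L), (u : V) ≠ i := fun u i h => disjoint_left.1 hUL u.2 (h ▸ i.2)
    have hur : ∀ (u : U) (i : R), (u : V) ≠ i := fun u i h => disjoint_left.1 hUR u.2 (h ▸ i.2)
    have hlr : ∀ (i : L) (j : R), (i : V) ≠ j := fun i j h => disjoint_left.1 hLR i.2 (h ▸ j.2)
    rintro (u | i) (w | j) hne <;>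
      simp only [B, Sum.elim_inl, Sum.elim_inr, Set.disjoint_singleton_left,
        Set.disjoint_singleton_right, Set.disjoint_insert_left, Set.mem_singleton_iff,
        Set.mem_insert_iff, not_or]
    · exact fun h => hne (by simp [Subtype.ext_iff, h])
    · exact ⟨hul u j, hur u _⟩
    · exact ⟨hul w i, hur w _⟩
    · have hij : i ≠ j := fun h => hne (by rw [h])
      exact ⟨⟨fun h => hij (Subtype.ext h), hlr i _⟩, fun h => hlr j (σ i) h.symm,
        fun h => hij (σ.injective (Subtype.ext h))⟩
  have key4 : ∀ a a', a ≠ a' → ∃ x ∈ B a, ∃ y ∈ B a', G.Adj x y := by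
    rintro (u | i) (w | j) hne <;> simp only [B, Sum.elim_inl, Sum.elim_inr]
    · exact ⟨u, rfl, w, rfl, h0 _ u.2 _ w.2 fun h => hne (by simp [Subtype.ext_iff, h])⟩
    · rcases h2 u u.2 j with h | h
      · exact ⟨u, rfl, _, Or.inl rfl, h⟩
      · exact ⟨u, rfl, _, Or.inr rfl, h⟩
    · rcases h2 w w.2 i with h | h
      · exact ⟨_, Or.inl rfl, w, rfl, h.symm⟩
      · exact ⟨_, Or.inr rfl, w, rfl, h.symm⟩
    · rcases h3 i j (fun h => hne (by rw [h])) with h | h | h | h
      · exact ⟨_, Or.inl rfl, _, Or.inl rfl, h⟩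
      · exact ⟨_, Or.inl rfl, _, Or.inr rfl, h⟩
      · exact ⟨_, Or.inr rfl, _, Or.inl rfl, h⟩
      · exact ⟨_, Or.inr rfl, _, Or.inr rfl, h⟩
  exact ⟨fun k => B (E.symm k), fun _ => key1 _, fun _ => key2 _,
    fun k l h => key3 _ _ fun e => h (E.symm.injective e),
    fun k l h => key4 _ _ fun e => h (E.symm.injective e)⟩

/-- a matching of the complement splits the vertices into uncovered `U` and the two ends -/
theorem exists_split (G : SimpleGraph V) (p : V → V)
    (hp : ∀ x, p (p x) = x ∧ (p x ≠ x → Gᶜ.Adj x (p x))) :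
    ∃ U L R : Finset V, Disjoint U L ∧ Disjoint U R ∧ Disjoint L R ∧ L.card = R.card ∧
      U.card + L.card + R.card = Fintype.card V ∧ (∀ x, x ∈ U ↔ p x = x) ∧
      G.Colorable (U.card + L.card) := by
  classical
  let e := Fintype.equivFin V
  refine ⟨univ.filter (fun x => p x = x), univ.filter (fun x => p x ≠ x ∧ e x < e (p x)),
    univ.filter (fun x => p x ≠ x ∧ e (p x) < e x), ?_, ?_, ?_, ?_, ?_, fun x => by simp, ?_⟩
  all_goals try (rw [disjoint_left]; intro x hx hy; simp only [mem_filter] at hx hy)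
  · exact hy.2.1 hx.2
  · exact hy.2.1 hx.2
  · exact absurd hx.2.2 (not_lt.2 hy.2.2.le)
  · refine card_bij' (fun x _ => p x) (fun x _ => p x) ?_ ?_ (fun x _ => (hp x).1)
      (fun x _ => (hp x).1) <;>
    · intro x hx
      simp only [mem_filter, mem_univ, true_and] at hx ⊢
      exact ⟨fun h => hx.1 (by rw [(hp x).1] at h; exact h.symm), by rw [(hp x).1]; exact hx.2⟩
  · rw [card_filter, card_filter, card_filter, ← sum_add_distrib, ← sum_add_distrib]
    refine Eq.trans (sum_congr rfl (g := fun _ => 1) fun x _ => ?_) (by simp)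
    rcases lt_trichotomy (e x) (e (p x)) with h | h | h
    · have hne : p x ≠ x := fun h' => by rw [h'] at h; exact lt_irrefl _ h
      simp [hne, h, h.not_gt]
    · have he : p x = x := (e.injective h).symm
      simp [he]
    · have hne : p x ≠ x := fun h' => by rw [h'] at h; exact lt_irrefl _ h
      simp [hne, h, h.not_gt]
  · have hmemR : ∀ x, p x ≠ x → ¬ e x < e (p x) →
        p x ∈ univ.filter (fun x => p x ≠ x ∧ e x < e (p x)) := by
      intro x h1 h2
      simp only [mem_filter, mem_univ, true_and]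
      refine ⟨fun h => h1 (by rw [(hp x).1] at h; exact h.symm), ?_⟩
      rw [(hp x).1]
      exact lt_of_le_of_ne (not_lt.1 h2) (fun h => h1 (e.injective h))
    let col : V → ↥(univ.filter (fun x => p x = x)) ⊕
        ↥(univ.filter (fun x => p x ≠ x ∧ e x < e (p x))) := fun x =>
      if h1 : p x = x then Sum.inl ⟨x, by simp [h1]⟩
      else if h2 : e x < e (p x) then Sum.inr ⟨x, by simp [h1, h2]⟩
      else Sum.inr ⟨p x, hmemR x h1 h2⟩
    have hcol : G.Colorable (Fintype.card (↥(univ.filter (fun x => p x = x)) ⊕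
        ↥(univ.filter (fun x => p x ≠ x ∧ e x < e (p x))))) := by
      refine (SimpleGraph.Coloring.mk col ?_).colorable
      intro x y hadj hc
      have hne := hadj.ne
      have key : y = p x ∨ x = p y ∨ x = y := by
        simp only [col] at hc
        split_ifs at hc with a1 b1 b2 a2 b1 b2 b1 b2 <;>
          first
          | (simp only [Sum.inl.injEq, Sum.inr.injEq, Subtype.mk.injEq] at hc
             first
             | exact Or.inr (Or.inr hc)
             | exact Or.inr (Or.inl hc)
             | exact Or.inl hc.symm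
             | exact Or.inr (Or.inr (by rw [← (hp x).1, hc, (hp y).1])))
          | simp at hc
      rcases key with h | h | h
      · subst h
        exact ((hp x).2 (fun h' => hne h'.symm)).2 hadj
      · subst h
        exact ((hp y).2 hne).2 hadj.symm
      · exact hne h
    rw [Fintype.card_sum, Fintype.card_coe, Fintype.card_coe] at hcol
    exact hcol

end Vale.Agent.P060
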